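import Vale.Agent.Lib.P314.D3.Defs

/-! MODULE D-Bits. Paper proof. `bucket_lt`: induction on `B`. `exists_bits`: induct on `S` (`Finset.induction_on`), inserting one element `v` at a time: if `bucket B` is already injective on `insert v S`, keep `B`;
otherwise `bucket B v = bucket B u` for exactly one `u ∈ S`, `u ≠ v`; they differ at a bit `b < L` (`Nat.eq_of_testBit_eq`, and bits at index `≥ L` of numbers `< 2 ^ L` vanish: `Nat.testBit_lt_two_pow` or similar), and `B' = b :: B` works since `bucket (b :: B) j = 2 * bucket B j + bit` determines `bucket B j` and the bit. Length grows by at most `1` per inserted element, none for the first. -/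

namespace Vale.Agent.Lib.P314.D3

theorem bucket_lt (B : List ℕ) (j : ℕ) : bucket B j < 2 ^ B.length := by
  induction B with
  | nil => simp [bucket]
  | cons b B ih =>
    simp only [bucket, List.length_cons, pow_succ]
    split_ifs <;> omega

private theorem exists_bit {u v L : ℕ} (hu : u < 2 ^ L) (hv : v < 2 ^ L) (hne : u ≠ v) :
    ∃ b, b < L ∧ u.testBit b ≠ v.testBit b := by
  by_contra hall
  push Not at hall
  apply hne
  refine Nat.eq_of_testBit_eq fun i => ?_
  by_cases hi : i < L
  · exact hall i hi
  · have h1 : u.testBit i = false :=
      Nat.testBit_lt_two_pow (lt_of_lt_of_le hu (Nat.pow_le_pow_right (by norm_num) (by omega)))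
    have h2 : v.testBit i = false :=
      Nat.testBit_lt_two_pow (lt_of_lt_of_le hv (Nat.pow_le_pow_right (by norm_num) (by omega)))
    rw [h1, h2]

private theorem bucket_cons_inj {b : ℕ} {B : List ℕ} {u v : ℕ} (h : bucket (b :: B) u = bucket (b :: B) v) :
    bucket B u = bucket B v ∧ u.testBit b = v.testBit b := by
  simp only [bucket] at h
  cases hu : u.testBit b <;> cases hv : v.testBit b <;>
    simp only [hu, hv, Bool.false_eq_true, if_true, if_false, and_true, and_false, reduceCtorEq,
      add_zero] at h ⊢ <;> omega

theorem exists_bits (S : Finset ℕ) (L : ℕ) (hS : ∀ j ∈ S, j < 2 ^ L) :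
    ∃ B : List ℕ, B.length ≤ S.card - 1 ∧ (∀ b ∈ B, b < L) ∧ Set.InjOn (bucket B) (S : Set ℕ) := by
  classical
  induction S using Finset.induction_on with
  | empty => exact ⟨[], by simp, by simp, by simp⟩
  | insert v S hv ih =>
    obtain ⟨B, hlen, hbL, hinj⟩ := ih (fun j hj => hS j (Finset.mem_insert_of_mem hj))
    by_cases hall : ∀ u ∈ S, bucket B u ≠ bucket B v
    · refine ⟨B, ?_, hbL, ?_⟩
      · rw [Finset.card_insert_of_notMem hv]
        omega
      · intro p hp q hq hpq
        simp only [Finset.coe_insert, Set.mem_insert_iff, Finset.mem_coe] at hp hq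
        rcases hp with rfl | hp <;> rcases hq with rfl | hq
        · rfl
        · exact absurd hpq.symm (hall q hq)
        · exact absurd hpq (hall p hp)
        · exact hinj hp hq hpq
    · push Not at hall
      obtain ⟨u, huS, huv⟩ := hall
      have hne : u ≠ v := by rintro rfl; exact hv huS
      obtain ⟨b, hb, hbit⟩ := exists_bit (hS u (Finset.mem_insert_of_mem huS))
        (hS v (Finset.mem_insert_self v S)) hne
      refine ⟨b :: B, ?_, ?_, ?_⟩
      · have hSpos : 1 ≤ S.card := Finset.card_pos.2 ⟨u, huS⟩
        rw [Finset.card_insert_of_notMem hv, List.length_cons]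
        omega
      · intro b' hb'
        rcases List.mem_cons.1 hb' with rfl | hb'
        · exact hb
        · exact hbL b' hb'
      · intro p hp q hq hpq
        simp only [Finset.coe_insert, Set.mem_insert_iff, Finset.mem_coe] at hp hq
        obtain ⟨h1, h2⟩ := bucket_cons_inj hpq
        rcases hp with rfl | hp <;> rcases hq with rfl | hq
        · rfl
        · have : q = u := hinj hq huS (h1.symm.trans huv.symm)
          subst this
          exact absurd h2.symm hbit
        · have : p = u := hinj hp huS (h1.trans huv.symm)
          subst this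
          exact absurd h2 hbit
        · exact hinj hp hq h1

end Vale.Agent.Lib.P314.D3
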