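import Vale.Agent.Lib.P314.D3.Defs

/-! MODULE D-Chain. Support bound in the algebra `A = Fin k → ℚ` (pointwise product). Paper proof. Put `x j a : A`.
For `j`, `e` let `V j e = span {∏_{i ∈ T} x i (a i) : T ⊆ range j, T.card ≤ e, a}`, `W j = span {same, any T}`.
Facts: `V j e ≤ V (j+1) e`; multiplication by `x j a` maps `V j e` into `V (j+1) (e+1)` (add `j` to `T`, `j ∉ T`); `W (j+1) ≤ W j ⊔ ⨆ a, x j a • W j` (a set `T ⊆ range (j+1)` contains `j` or not; here `c • U` is the image of `U` under the linear map
multiplication by `c`, for instance `LinearMap.mulLeft`). Claim by induction on `j`: `W j ≤ V j (finrank (W j) - 1)`, and `1 ≤ finrank (W j)` if `k ≠ 0`. `j = 0`: `T = ∅`, product `1`. Step: `f = finrank (W j)`, `f' = finrank (W (j+1))`, `W j ≤ W (j+1)` so `f ≤ f'`. If `f = f'` then `W (j+1) = W j ≤ V j (f-1) ≤ V (j+1) (f-1)`. If `f < f'`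
then `W (j+1) ≤ V j (f-1) ⊔ ⨆ a, x j a • V j (f-1) ≤ V (j+1) f ≤ V (j+1) (f'-1)`. (This is the argument of `Vale.Agent.Lib.P314.flag` in `Flag.lean`, simpler since the default layers are `1`.) Finally `finrank (W d) ≤ k`.
`chain`: the functional `y ↦ ∑ i, φ i * y i` is nonzero at a generator of `W d`, hence on `W d ≤ V d (k-1)`, hence at a generator of `V d (k-1)`.
`exists_support`: `Finset.prod_one_add` gives `∏_{j ∈ range d} (1 + ∑ₐ z j a * x j a i) = ∑_{T ⊆ range d} ∏_{j ∈ T} ∑ₐ z j a * x j a i`, and each product expands (`Finset.prod_sum`, or by induction on `T`) as a linear combination of the `∏_{j ∈ T} x j (a j) i` with coefficients not depending on `i`. If all the functional values vanish, so does the whole sum. -/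

namespace Vale.Agent.Lib.P314.D3

namespace ChainAux

variable {k n : ℕ}

/-- Generators: products over sets `T ⊆ range j` of size at most `e`. -/
def gens (x : ℕ → Fin n → Fin k → ℚ) (j e : ℕ) : Set (Fin k → ℚ) :=
  {y | ∃ T ⊆ Finset.range j, T.card ≤ e ∧ ∃ a : ℕ → Fin n, y = fun i => ∏ l ∈ T, x l (a l) i}

/-- The span of the generators. -/
def V (x : ℕ → Fin n → Fin k → ℚ) (j e : ℕ) : Submodule ℚ (Fin k → ℚ) :=
  Submodule.span ℚ (gens x j e)

theorem V_mono (x : ℕ → Fin n → Fin k → ℚ) {j j' e e' : ℕ} (hj : j ≤ j') (he : e ≤ e') :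
    V x j e ≤ V x j' e' := by
  apply Submodule.span_mono
  rintro y ⟨T, hT, hc, a, rfl⟩
  exact ⟨T, hT.trans (Finset.range_mono hj), hc.trans he, a, rfl⟩

theorem mul_mem_V (x : ℕ → Fin n → Fin k → ℚ) (j e : ℕ) (b : Fin n) {y : Fin k → ℚ}
    (hy : y ∈ V x j e) : (x j b * y) ∈ V x (j + 1) (e + 1) := by
  induction hy using Submodule.span_induction with
  | mem y hy =>
    obtain ⟨T, hT, hc, a, rfl⟩ := hy
    apply Submodule.subset_span
    have hj : j ∉ T := fun h => by
      have := hT h
      simp at this
    refine ⟨insert j T, ?_, ?_, Function.update a j b, ?_⟩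
    · intro l hl
      rw [Finset.mem_insert] at hl
      rcases hl with rfl | hl
      · simp
      · have := hT hl
        simp only [Finset.mem_range] at this ⊢
        omega
    · rw [Finset.card_insert_of_notMem hj]
      omega
    · funext i
      rw [Finset.prod_insert hj]
      simp only [Pi.mul_apply, Function.update_self]
      congr 1
      apply Finset.prod_congr rfl
      intro l hl
      have : l ≠ j := fun h => hj (h ▸ hl)
      rw [Function.update_of_ne this]
  | zero => simp
  | add y z _ _ hy hz =>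
    rw [mul_add]
    exact Submodule.add_mem _ hy hz
  | smul c y _ hy =>
    rw [mul_smul_comm]
    exact Submodule.smul_mem _ c hy

theorem one_mem_V [NeZero n] (x : ℕ → Fin n → Fin k → ℚ) (j e : ℕ) :
    (1 : Fin k → ℚ) ∈ V x j e := by
  apply Submodule.subset_span
  refine ⟨∅, by simp, by simp, fun _ => 0, ?_⟩
  funext i
  simp

theorem key [NeZero n] [NeZero k] (x : ℕ → Fin n → Fin k → ℚ) (j : ℕ) :
    1 ≤ Module.finrank ℚ (V x j j) ∧ V x j j ≤ V x j (Module.finrank ℚ (V x j j) - 1) := by
  have hpos : ∀ j, 1 ≤ Module.finrank ℚ (V x j j) := by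
    intro j
    have hne : (V x j j) ≠ ⊥ := by
      intro h
      have h1 := one_mem_V x j j
      rw [h, Submodule.mem_bot] at h1
      have h2 := congrFun h1 (0 : Fin k)
      simp at h2
    exact Nat.one_le_iff_ne_zero.mpr (fun h => hne (Submodule.finrank_eq_zero.mp h))
  refine ⟨hpos j, ?_⟩
  induction j with
  | zero =>
    apply Submodule.span_le.mpr
    rintro y ⟨T, hT, _, a, rfl⟩
    have : T = ∅ := by simpa using hT
    subst this
    apply Submodule.subset_span
    exact ⟨∅, by simp, by simp, a, rfl⟩
  | succ j ih =>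
    have hle : V x j j ≤ V x (j + 1) (j + 1) := V_mono x (Nat.le_succ j) (Nat.le_succ j)
    have hf : Module.finrank ℚ (V x j j) ≤ Module.finrank ℚ (V x (j + 1) (j + 1)) :=
      Submodule.finrank_mono hle
    rcases hf.eq_or_lt with hEq | hLt
    · have hVV : V x j j = V x (j + 1) (j + 1) := Submodule.eq_of_le_of_finrank_eq hle hEq
      rw [← hVV]
      refine ih.trans ?_
      exact V_mono x (Nat.le_succ j) le_rfl
    · have hp := hpos j
      apply Submodule.span_le.mpr
      rintro y ⟨T, hT, _, a, rfl⟩
      by_cases hj : j ∈ T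
      · -- `T = insert j (T.erase j)`
        have hT' : T.erase j ⊆ Finset.range j := by
          intro l hl
          rw [Finset.mem_erase] at hl
          have := hT hl.2
          simp only [Finset.mem_range] at this ⊢
          omega
        have hy : (fun i => ∏ l ∈ T.erase j, x l (a l) i) ∈ V x j j :=
          Submodule.subset_span
            ⟨T.erase j, hT', by
              have := Finset.card_le_card hT'
              simpa using this, a, rfl⟩
        have hm := mul_mem_V x j _ (a j) (ih hy)
        have he : (x j (a j) * fun i => ∏ l ∈ T.erase j, x l (a l) i)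
            = fun i => ∏ l ∈ T, x l (a l) i := by
          funext i
          rw [Pi.mul_apply, ← Finset.mul_prod_erase T (fun l => x l (a l) i) hj]
        rw [he] at hm
        exact V_mono x le_rfl (by omega) hm
      · have hT' : T ⊆ Finset.range j := by
          intro l hl
          have := hT hl
          simp only [Finset.mem_range] at this ⊢
          have hne : l ≠ j := fun h => hj (h ▸ hl)
          omega
        have hy : (fun i => ∏ l ∈ T, x l (a l) i) ∈ V x j j :=
          Submodule.subset_span
            ⟨T, hT', by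
              have := Finset.card_le_card hT'
              simpa using this, a, rfl⟩
        exact V_mono x (Nat.le_succ j) (by omega) (ih hy)

/-- The functional `y ↦ ∑ i, φ i * y i`. -/
def psi (φ : Fin k → ℚ) : (Fin k → ℚ) →ₗ[ℚ] ℚ where
  toFun y := ∑ i, φ i * y i
  map_add' y z := by
    simp only [Pi.add_apply, mul_add, Finset.sum_add_distrib]
  map_smul' c y := by
    simp only [Pi.smul_apply, smul_eq_mul, RingHom.id_apply, Finset.mul_sum]
    apply Finset.sum_congr rfl
    intro i _
    ring

/-- Products over a fixed set. -/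
def P (x : ℕ → Fin n → Fin k → ℚ) (T : Finset ℕ) : Submodule ℚ (Fin k → ℚ) :=
  Submodule.span ℚ {y | ∃ a : ℕ → Fin n, y = fun i => ∏ l ∈ T, x l (a l) i}

theorem mul_mem_P (x : ℕ → Fin n → Fin k → ℚ) (T : Finset ℕ) (j : ℕ) (hj : j ∉ T) (b : Fin n)
    {y : Fin k → ℚ} (hy : y ∈ P x T) : (x j b * y) ∈ P x (insert j T) := by
  induction hy using Submodule.span_induction with
  | mem y hy =>
    obtain ⟨a, rfl⟩ := hy
    apply Submodule.subset_span
    refine ⟨Function.update a j b, ?_⟩
    funext i
    rw [Finset.prod_insert hj]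
    simp only [Pi.mul_apply, Function.update_self]
    congr 1
    apply Finset.prod_congr rfl
    intro l hl
    have : l ≠ j := fun h => hj (h ▸ hl)
    rw [Function.update_of_ne this]
  | zero => simp
  | add y z _ _ hy hz =>
    rw [mul_add]
    exact Submodule.add_mem _ hy hz
  | smul c y _ hy =>
    rw [mul_smul_comm]
    exact Submodule.smul_mem _ c hy

theorem expand_mem_P (hn : 0 < n) (x : ℕ → Fin n → Fin k → ℚ) (z : ℕ → Fin n → ℚ) (T : Finset ℕ) :
    (fun i => ∏ l ∈ T, ∑ a, z l a * x l a i) ∈ P x T := by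
  induction T using Finset.induction_on with
  | empty =>
    apply Submodule.subset_span
    exact ⟨fun _ => ⟨0, hn⟩, by simp⟩
  | insert j T hj ih =>
    have he : (fun i => ∏ l ∈ insert j T, ∑ a, z l a * x l a i)
        = ∑ b, z j b • (x j b * fun i => ∏ l ∈ T, ∑ a, z l a * x l a i) := by
      funext i
      rw [Finset.prod_insert hj, Finset.sum_apply, Finset.sum_mul]
      apply Finset.sum_congr rfl
      intro b _
      simp [mul_assoc]
    rw [he]
    apply Submodule.sum_mem
    intro b _
    exact Submodule.smul_mem _ _ (mul_mem_P x T j hj b ih)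

end ChainAux

open ChainAux in
/-- If the functional is nonzero on some product `∏_{j ∈ T} x j (a j)`, it is nonzero on such a product with `T.card < k`. -/
theorem chain {k n d : ℕ} (x : ℕ → Fin n → Fin k → ℚ) (φ : Fin k → ℚ)
    (h : ∃ T ⊆ Finset.range d, ∃ a : ℕ → Fin n, ∑ i, φ i * ∏ j ∈ T, x j (a j) i ≠ 0) :
    ∃ T ⊆ Finset.range d, T.card < k ∧ ∃ a : ℕ → Fin n, ∑ i, φ i * ∏ j ∈ T, x j (a j) i ≠ 0 := by
  obtain ⟨T, hT, a, hne⟩ := h
  have hk : k ≠ 0 := by
    rintro rfl
    simp at hne
  have hn : n ≠ 0 := by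
    rintro rfl
    exact (a 0).elim0
  have : NeZero k := ⟨hk⟩
  have : NeZero n := ⟨hn⟩
  by_contra hcon
  push Not at hcon
  -- the functional vanishes on `V d (k - 1)`
  have hker : V x d (k - 1) ≤ LinearMap.ker (psi φ) := by
    apply Submodule.span_le.mpr
    rintro y ⟨T', hT', hc, a', rfl⟩
    have hlt : T'.card < k := by omega
    exact hcon T' hT' hlt a'
  have hfin : Module.finrank ℚ (V x d d) ≤ k := by
    have := Submodule.finrank_le (V x d d)
    simpa using this
  have hle : V x d d ≤ V x d (k - 1) := by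
    refine (key x d).2.trans ?_
    exact V_mono x le_rfl (by omega)
  have hmem : (fun i => ∏ l ∈ T, x l (a l) i) ∈ V x d d :=
    Submodule.subset_span
      ⟨T, hT, by
        have := Finset.card_le_card hT
        simpa using this, a, rfl⟩
  exact hne (hker (hle hmem))

open ChainAux in
theorem exists_support {k n d : ℕ} (hn : 0 < n) (x : ℕ → Fin n → Fin k → ℚ) (φ : Fin k → ℚ)
    (z : ℕ → Fin n → ℚ)
    (h : ∑ i, φ i * ∏ j ∈ Finset.range d, (1 + ∑ a, z j a * x j a i) ≠ 0) :
    ∃ T ⊆ Finset.range d, T.card < k ∧ ∃ a : ℕ → Fin n, ∑ i, φ i * ∏ j ∈ T, x j (a j) i ≠ 0 := by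
  apply chain
  by_contra hcon
  push Not at hcon
  apply h
  have hprod : (fun i => ∏ j ∈ Finset.range d, (1 + ∑ a, z j a * x j a i))
      = ∑ T ∈ (Finset.range d).powerset, fun i => ∏ l ∈ T, ∑ a, z l a * x l a i := by
    funext i
    rw [Finset.prod_one_add, Finset.sum_apply]
  have hpsi : psi φ (fun i => ∏ j ∈ Finset.range d, (1 + ∑ a, z j a * x j a i)) = 0 := by
    rw [hprod, map_sum]
    apply Finset.sum_eq_zero
    intro T hT
    have hT' : T ⊆ Finset.range d := Finset.mem_powerset.mp hT
    have hker : P x T ≤ LinearMap.ker (psi φ) := by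
      apply Submodule.span_le.mpr
      rintro y ⟨a, rfl⟩
      exact hcon T hT' a
    exact hker (expand_mem_P hn x z T)
  exact hpsi

end Vale.Agent.Lib.P314.D3
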