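import Vale.Agent.Lib.P314.D3.PolyDet

/-! MODULE D-Condenser. Rank condenser. Paper proof. For a functional `ψ : (Fin k → ℚ) →ₗ[ℚ] ℚ` let `g ψ = ∑ c, C (ψ (M c)) * X ^ c`, a polynomial of degree `< N`; `𝒢` = range of the linear map `ψ ↦ g ψ`, finrank `≤ k`.
Let `E` = set of `natDegree` of nonzero elements of `𝒢`, a finite subset of `range N`; choose `gₑ ∈ 𝒢` nonzero of natDegree `e`. Enumerate `E` increasingly (`Finset.orderEmbOfFin`): `g : Fin ρ → ℚ[X]`, `ρ = E.card`. They are linearly independent (distinct degrees: look at the coefficient of the largest degree in a relation), so `ρ ≤ k`.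
Every element of `𝒢` is in `span (range g)`: strong induction on natDegree: subtract `(lead f / lead gₑ) • gₑ`, `e = natDegree f`, the degree drops or the result is `0`.
`Bad` = natural numbers that are roots of the determinant of `polyDet`: `Bad.card ≤ natDegree det ≤ ρ ^ 2 * N ≤ k ^ 2 * N` (`Polynomial.card_roots'`, cast injective, e.g. the preimage of `det.roots.toFinset` under `Nat.cast`). Now let `σ ∉ Bad`, and assume some `M c ∉ Y = span (range (fun t => ∑ c', σ ^ ((t+1) c') • M c'))`.
There is a functional `ψ` vanishing on `Y` with `ψ (M c) ≠ 0` (`Submodule.exists_le_ker_of_notMem` or similar, finite-dimensional over the field). Then `f = g ψ ≠ 0` (coefficient `c`) and `f.eval (σ ^ (t+1)) = ψ (∑ c', σ ^ ((t+1) c') • M c') = 0` for all `t : Fin k`, hence for `t < ρ`.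
Write `f = ∑ i, b i • g i`, `b ≠ 0`. So `b ᵥ* (P.map (eval σ)) = 0` where `P` is the matrix of `polyDet` (`(g i).comp (X^(t+1))` evaluated at `σ` is `(g i).eval (σ^(t+1))`), and `det (P.map eval) = eval (det P) ≠ 0` (`RingHom.map_det`), contradiction with `Matrix.eq_zero_of_vecMul_eq_zero`. -/

namespace Vale.Agent.Lib.P314.D3

open Polynomial

/-- The linear map `ψ ↦ ∑ c, ψ (M c) X ^ c`. -/
private noncomputable def condG {k N : ℕ} (M : Fin N → Fin k → ℚ) :
    Module.Dual ℚ (Fin k → ℚ) →ₗ[ℚ] ℚ[X] where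
  toFun ψ := ∑ c : Fin N, (ψ (M c)) • (X : ℚ[X]) ^ (c : ℕ)
  map_add' := by
    intro a b
    simp [add_smul, Finset.sum_add_distrib]
  map_smul' := by
    intro a b
    simp [mul_smul, Finset.smul_sum]

private lemma condG_apply {k N : ℕ} (M : Fin N → Fin k → ℚ) (ψ : Module.Dual ℚ (Fin k → ℚ)) :
    condG M ψ = ∑ c : Fin N, (ψ (M c)) • (X : ℚ[X]) ^ (c : ℕ) := rfl

private lemma condG_coeff {k N : ℕ} (M : Fin N → Fin k → ℚ) (ψ : Module.Dual ℚ (Fin k → ℚ))
    (c : Fin N) : (condG M ψ).coeff (c : ℕ) = ψ (M c) := by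
  rw [condG_apply, finsetSum_coeff]
  rw [Finset.sum_eq_single c]
  · simp [coeff_X_pow]
  · intro b _ hb
    have : (c : ℕ) ≠ (b : ℕ) := fun h => hb (Fin.ext h.symm)
    simp [coeff_X_pow, this]
  · simp

private lemma condG_coeff_ge {k N : ℕ} (M : Fin N → Fin k → ℚ) (ψ : Module.Dual ℚ (Fin k → ℚ))
    (m : ℕ) (hm : N ≤ m) : (condG M ψ).coeff m = 0 := by
  rw [condG_apply, finsetSum_coeff]
  apply Finset.sum_eq_zero
  intro b _
  have : m ≠ (b : ℕ) := by
    have := b.isLt
    omega
  simp [coeff_X_pow, this]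

private lemma condG_natDegree {k N : ℕ} (M : Fin N → Fin k → ℚ) (ψ : Module.Dual ℚ (Fin k → ℚ))
    (h : condG M ψ ≠ 0) : (condG M ψ).natDegree < N := by
  rw [natDegree_lt_iff_degree_lt h, degree_lt_iff_coeff_zero]
  intro m hm
  exact condG_coeff_ge M ψ m hm

private lemma condG_eval {k N : ℕ} (M : Fin N → Fin k → ℚ) (ψ : Module.Dual ℚ (Fin k → ℚ))
    (x : ℚ) : (condG M ψ).eval x = ψ (∑ c : Fin N, (x ^ (c : ℕ)) • M c) := by
  rw [condG_apply, eval_finsetSum, map_sum]
  apply Finset.sum_congr rfl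
  intro c _
  simp [mul_comm]

/-- Linear independence of a family with strictly increasing degrees. -/
private lemma li_of_strictMono {ρ : ℕ} (g : Fin ρ → ℚ[X]) (hg : ∀ i, g i ≠ 0)
    (hm : StrictMono fun i => (g i).natDegree) : LinearIndependent ℚ g := by
  rw [Fintype.linearIndependent_iff]
  intro b hb
  by_contra hne
  push Not at hne
  obtain ⟨i₀, hi₀⟩ := hne
  -- the largest index with nonzero coefficient
  let S : Finset (Fin ρ) := Finset.univ.filter fun i => b i ≠ 0
  have hS : S.Nonempty := ⟨i₀, by simp [S, hi₀]⟩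
  let i := S.max' hS
  have hi : b i ≠ 0 := by
    have := S.max'_mem hS
    simpa [S] using this
  have hcoeff := congrArg (fun p : ℚ[X] => p.coeff (g i).natDegree) hb
  simp only [finsetSum_coeff, coeff_smul, coeff_zero] at hcoeff
  rw [Finset.sum_eq_single i] at hcoeff
  · simp only [smul_eq_mul, coeff_natDegree] at hcoeff
    rcases mul_eq_zero.mp hcoeff with h | h
    · exact hi h
    · exact hg i (leadingCoeff_eq_zero.mp h)
  · intro j _ hj
    by_cases hbj : b j = 0
    · simp [hbj]
    · have hjS : j ∈ S := by simp [S, hbj]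
      have hle : j ≤ i := S.le_max' j hjS
      have hlt : j < i := lt_of_le_of_ne hle hj
      have := hm hlt
      have hc : (g j).coeff (g i).natDegree = 0 :=
        coeff_eq_zero_of_natDegree_lt this
      simp [hc]
  · simp

/-- For all natural `σ` outside a set of at most `k ^ 2 * N` values, the `k` vectors `∑ c', σ ^ ((t+1) c') • M c'` span all the columns of the
`k × N` matrix `M`. -/
theorem condenser {k N : ℕ} (M : Fin N → Fin k → ℚ) :
    ∃ Bad : Finset ℕ, Bad.card ≤ k ^ 2 * N ∧ ∀ σ : ℕ, σ ∉ Bad → ∀ c : Fin N,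
      M c ∈ Submodule.span ℚ (Set.range fun t : Fin k =>
        ∑ c' : Fin N, ((σ : ℚ) ^ (((t : ℕ) + 1) * (c' : ℕ))) • M c') := by
  classical
  -- the degree set
  let 𝒢 : Submodule ℚ ℚ[X] := LinearMap.range (condG M)
  let E : Finset ℕ := (Finset.range N).filter fun e => ∃ f ∈ 𝒢, f ≠ 0 ∧ f.natDegree = e
  have hE : ∀ e ∈ E, ∃ f ∈ 𝒢, f ≠ 0 ∧ f.natDegree = e := by
    intro e he
    exact (Finset.mem_filter.mp he).2
  have hElt : ∀ e ∈ E, e < N := by
    intro e he
    exact Finset.mem_range.mp (Finset.mem_filter.mp he).1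
  have hEmem : ∀ f ∈ 𝒢, f ≠ 0 → f.natDegree ∈ E := by
    intro f hf hf0
    refine Finset.mem_filter.mpr ⟨?_, f, hf, hf0, rfl⟩
    obtain ⟨ψ, rfl⟩ := hf
    exact Finset.mem_range.mpr (condG_natDegree M ψ hf0)
  choose! gE hgE𝒢 hgE0 hgEd using hE
  let ρ := E.card
  let emb : Fin ρ ↪o ℕ := E.orderEmbOfFin rfl
  have hembE : ∀ i, emb i ∈ E := fun i => Finset.orderEmbOfFin_mem E rfl i
  let g : Fin ρ → ℚ[X] := fun i => gE (emb i)
  have hg𝒢 : ∀ i, g i ∈ 𝒢 := fun i => hgE𝒢 _ (hembE i)
  have hg0 : ∀ i, g i ≠ 0 := fun i => hgE0 _ (hembE i)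
  have hgd : ∀ i, (g i).natDegree = emb i := fun i => hgEd _ (hembE i)
  have hgm : StrictMono fun i => (g i).natDegree := by
    intro i j hij
    simp only [hgd]
    exact emb.strictMono hij
  have hgN : ∀ i, (g i).natDegree < N := by
    intro i
    rw [hgd]
    exact hElt _ (hembE i)
  -- ρ ≤ k
  have hρ : ρ ≤ k := by
    choose ψ hψ using hg𝒢
    have hli : LinearIndependent ℚ ψ := by
      apply LinearIndependent.of_comp (condG M)
      have : (condG M) ∘ ψ = g := funext hψ
      rw [this]
      exact li_of_strictMono g hg0 hgm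
    have := hli.fintype_card_le_finrank
    simpa [Subspace.dual_finrank_eq] using this
  -- spanning
  have hspan : ∀ n : ℕ, ∀ f ∈ 𝒢, f.natDegree = n → f ∈ Submodule.span ℚ (Set.range g) := by
    intro n
    induction n using Nat.strong_induction_on with
    | _ n ih =>
      intro f hf hfn
      by_cases hf0 : f = 0
      · simp [hf0]
      have he := hEmem f hf hf0
      obtain ⟨i, hi⟩ : ∃ i, emb i = f.natDegree := by
        have hr := Finset.range_orderEmbOfFin E (k := ρ) rfl
        have : f.natDegree ∈ Set.range (E.orderEmbOfFin (rfl : E.card = ρ)) := by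
          rw [hr]
          exact_mod_cast he
        exact this
      have hgi : g i ≠ 0 := hg0 i
      have hgid : (g i).natDegree = f.natDegree := by rw [hgd, hi]
      have hlg : (g i).leadingCoeff ≠ 0 := leadingCoeff_ne_zero.mpr hgi
      let a : ℚ := f.leadingCoeff / (g i).leadingCoeff
      have ha : a ≠ 0 := div_ne_zero (leadingCoeff_ne_zero.mpr hf0) hlg
      have hmem : a • g i ∈ Submodule.span ℚ (Set.range g) :=
        Submodule.smul_mem _ _ (Submodule.subset_span ⟨i, rfl⟩)
      have hg'd : (a • g i).degree = f.degree := by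
        rw [smul_eq_C_mul, degree_C_mul ha, degree_eq_natDegree hgi, degree_eq_natDegree hf0, hgid]
      have hg'l : f.leadingCoeff = (a • g i).leadingCoeff := by
        rw [smul_eq_C_mul, leadingCoeff_mul, leadingCoeff_C]
        simp only [a]
        field_simp
      have hlt : (f - a • g i).degree < f.degree :=
        degree_sub_lt_left hg'd.symm hf0 hg'l
      have hf'mem : f - a • g i ∈ 𝒢 := 𝒢.sub_mem hf (𝒢.smul_mem _ (hg𝒢 i))
      have key : f - a • g i ∈ Submodule.span ℚ (Set.range g) := by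
        by_cases hf'0 : f - a • g i = 0
        · rw [hf'0]
          exact Submodule.zero_mem _
        · have hd : (f - a • g i).natDegree < f.natDegree :=
            natDegree_lt_natDegree hf'0 hlt
          exact ih _ (hfn ▸ hd) _ hf'mem rfl
      have : f = (f - a • g i) + a • g i := by ring
      rw [this]
      exact Submodule.add_mem _ key hmem
  -- the determinant
  let P : Matrix (Fin ρ) (Fin ρ) ℚ[X] := Matrix.of fun i t : Fin ρ => (g i).comp (X ^ ((t : ℕ) + 1))
  obtain ⟨hdet0, hdetd⟩ := polyDet g hg0 hgm hgN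
  have hdet0' : P.det ≠ 0 := hdet0
  have hdetd' : P.det.natDegree ≤ ρ ^ 2 * N := hdetd
  refine ⟨P.det.roots.toFinset.preimage (Nat.cast : ℕ → ℚ) Nat.cast_injective.injOn, ?_, ?_⟩
  · have h1 : (P.det.roots.toFinset.preimage (Nat.cast : ℕ → ℚ) Nat.cast_injective.injOn).card
        ≤ P.det.roots.toFinset.card := by
      apply Finset.card_le_card_of_injOn (Nat.cast : ℕ → ℚ)
      · intro a ha
        exact Finset.mem_preimage.mp ha
      · exact Nat.cast_injective.injOn
    have h2 : P.det.roots.toFinset.card ≤ P.det.roots.card := Multiset.toFinset_card_le _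
    have h3 : P.det.roots.card ≤ P.det.natDegree := card_roots' _
    have h4 : ρ ^ 2 * N ≤ k ^ 2 * N := Nat.mul_le_mul_right _ (Nat.pow_le_pow_left hρ 2)
    omega
  · intro σ hσ c
    by_contra hc
    obtain ⟨ψ, hψc, hψY⟩ := Submodule.exists_le_ker_of_notMem hc
    let f := condG M ψ
    have hf0 : f ≠ 0 := by
      intro h
      apply hψc
      have := condG_coeff M ψ c
      rw [← this]
      change f.coeff _ = 0
      rw [h, coeff_zero]
    have hfeval : ∀ t : Fin k, f.eval ((σ : ℚ) ^ ((t : ℕ) + 1)) = 0 := by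
      intro t
      rw [condG_eval]
      have hmem : (∑ c' : Fin N, ((σ : ℚ) ^ (((t : ℕ) + 1) * (c' : ℕ))) • M c') ∈
          Submodule.span ℚ (Set.range fun t : Fin k =>
            ∑ c' : Fin N, ((σ : ℚ) ^ (((t : ℕ) + 1) * (c' : ℕ))) • M c') :=
        Submodule.subset_span ⟨t, rfl⟩
      have := hψY hmem
      rw [LinearMap.mem_ker] at this
      simpa [pow_mul] using this
    have hfspan : f ∈ Submodule.span ℚ (Set.range g) := hspan _ f ⟨ψ, rfl⟩ rfl
    obtain ⟨b, hb⟩ := (Submodule.mem_span_range_iff_exists_fun ℚ).mp hfspan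
    -- the evaluated matrix
    let A : Matrix (Fin ρ) (Fin ρ) ℚ := (evalRingHom (σ : ℚ)).mapMatrix P
    have hA : ∀ i t : Fin ρ, A i t = (g i).eval ((σ : ℚ) ^ ((t : ℕ) + 1)) := by
      intro i t
      simp [A, P, eval_comp]
    have hdetA : A.det ≠ 0 := by
      have h1 : A.det = (evalRingHom (σ : ℚ)) P.det := (RingHom.map_det _ P).symm
      rw [h1]
      intro h
      apply hσ
      rw [Finset.mem_preimage, Multiset.mem_toFinset, mem_roots hdet0']
      exact h
    have hvec : Matrix.vecMul b A = 0 := by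
      funext t
      simp only [Matrix.vecMul, dotProduct, Pi.zero_apply, hA]
      have ht : (t : ℕ) < k := lt_of_lt_of_le t.isLt hρ
      have := hfeval ⟨t, ht⟩
      have hf : f = ∑ i, b i • g i := hb.symm
      rw [hf, eval_finsetSum] at this
      simpa using this
    have hb0 : b = 0 := Matrix.eq_zero_of_vecMul_eq_zero hdetA hvec
    apply hf0
    rw [← hb, hb0]
    simp

end Vale.Agent.Lib.P314.D3
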