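import Vale.Agent.Lib.P314.D3.Defs

/-! MODULE D-Expand. Paper proof. `eval_expand`: `Finset.prod_one_add` gives `∏ j ∈ J, (1 + τ * g j i) = ∑ T ∈ J.powerset, ∏ j ∈ T, τ * g j i = ∑ T ∈ J.powerset, τ ^ T.card * ∏ j ∈ T, g j i`. Group the powerset by cardinality (`Finset.sum_powerset_apply_card`-like lemmas, `Finset.powerset_card_disjiUnion`, or `Finset.sum_fiberwise`); `eval ξ` of `Gm` is computed with `map_sum`, `map_prod`, `eval_X`, `eval_C`.
`exists_tau`: the polynomial `∑ m' ∈ range (d+1), C (a m') * X ^ m'` has nonzero coefficient `m`, natDegree `≤ d`, so at most `d` roots (`Polynomial.card_roots'`); among the `d + 1` naturals `0, …, d` one is not a root. -/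

namespace Vale.Agent.Lib.P314.D3

theorem eval_expand {k : ℕ} (J : Finset ℕ) (h : ℕ → ℕ) (κ : ℕ → Fin k → Fin k → ℚ) (φ : Fin k → ℚ)
    (ξ : ℕ × Fin k → ℚ) (τ : ℚ) :
    ∑ i, φ i * ∏ j ∈ J, (1 + τ * ∑ t, ξ (h j, t) * κ j t i) =
      ∑ m ∈ Finset.range (J.card + 1), τ ^ m * MvPolynomial.eval ξ (Gm J h κ φ m) := by
  classical
  have hG : ∀ m, MvPolynomial.eval ξ (Gm J h κ φ m) =
      ∑ T ∈ J.powersetCard m, ∑ i, φ i * ∏ j ∈ T, ∑ t, ξ (h j, t) * κ j t i := by
    intro m
    simp [Gm, map_sum, map_prod]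
  have hP : ∀ i : Fin k, ∏ j ∈ J, (1 + τ * ∑ t, ξ (h j, t) * κ j t i) =
      ∑ m ∈ Finset.range (J.card + 1), ∑ T ∈ J.powersetCard m,
        τ ^ m * ∏ j ∈ T, ∑ t, ξ (h j, t) * κ j t i := by
    intro i
    rw [Finset.prod_one_add, Finset.sum_powerset]
    refine Finset.sum_congr rfl (fun m _ => Finset.sum_congr rfl (fun T hT => ?_))
    rw [Finset.prod_mul_distrib, Finset.prod_const, (Finset.mem_powersetCard.mp hT).2]
  simp_rw [hP, hG, Finset.mul_sum]
  rw [Finset.sum_comm]
  refine Finset.sum_congr rfl (fun m _ => ?_)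
  rw [Finset.sum_comm]
  refine Finset.sum_congr rfl (fun T _ => Finset.sum_congr rfl (fun i _ => ?_))
  ring

theorem exists_tau (a : ℕ → ℚ) (d m : ℕ) (hm : m ≤ d) (ha : a m ≠ 0) :
    ∃ τ : ℕ, τ ≤ d ∧ ∑ m' ∈ Finset.range (d + 1), (τ : ℚ) ^ m' * a m' ≠ 0 := by
  classical
  by_contra hcon
  push Not at hcon
  set P : Polynomial ℚ := ∑ m' ∈ Finset.range (d + 1), Polynomial.C (a m') * Polynomial.X ^ m' with hP
  have heval : ∀ x : ℚ, P.eval x = ∑ m' ∈ Finset.range (d + 1), x ^ m' * a m' := by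
    intro x
    rw [hP, Polynomial.eval_finsetSum]
    refine Finset.sum_congr rfl (fun m' _ => ?_)
    simp only [Polynomial.eval_mul, Polynomial.eval_C, Polynomial.eval_pow, Polynomial.eval_X]
    ring
  have hdeg : P.natDegree ≤ d := by
    refine Polynomial.natDegree_sum_le_of_forall_le _ _ (fun m' hm' => ?_)
    have h1 : m' ≤ d := by
      have := Finset.mem_range.mp hm'
      omega
    exact (Polynomial.natDegree_C_mul_X_pow_le _ _).trans h1
  have hcoeff : P.coeff m = a m := by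
    rw [hP, Polynomial.finsetSum_coeff]
    simp only [Polynomial.coeff_C_mul, Polynomial.coeff_X_pow]
    rw [Finset.sum_eq_single m]
    · simp
    · intro b _ hb
      simp [Ne.symm hb]
    · intro hn
      exact absurd (Finset.mem_range.mpr (by omega)) hn
  have hP0 : P = 0 := by
    refine Polynomial.eq_zero_of_natDegree_lt_card_of_eval_eq_zero' P
      ((Finset.range (d + 1)).image (fun t : ℕ => (t : ℚ))) ?_ ?_
    · intro x hx
      obtain ⟨t, ht, rfl⟩ := Finset.mem_image.mp hx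
      rw [heval]
      exact hcon t (by have := Finset.mem_range.mp ht; omega)
    · rw [Finset.card_image_of_injective _ Nat.cast_injective, Finset.card_range]
      omega
  rw [hP0] at hcoeff
  simp at hcoeff
  exact ha hcoeff.symm

end Vale.Agent.Lib.P314.D3
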