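import Vale.Agent.Lib.P314.D3.Defs

/-! MODULE D-GmCoeff. The coefficient of a multilinear monomial in `Gm`, and the size of its support. Paper proof of `Gm_ne_zero`.
Put `𝐦 = ∑ b ∈ Bs, single (b, tb b) 1`. We show `coeff 𝐦 (Gm J h κ φ Bs.card) = ∑ i, φ i * ∏ b ∈ Bs, ∑ j ∈ J.filter (h · = b), κ j (tb b) i`. Expand: `∏ j ∈ T, ∑ t, X (h j, t) * C (κ j t i) = ∑_{f : T → Fin k} monomial (∑ j ∈ T, single (h j, f j) 1) (∏ j ∈ T, κ j (f j) i)` (`Finset.prod_univ_sum`, or `Finset.prod_sum`).
The exponent equals `𝐦` iff `h` maps `T` bijectively to `Bs` and `f j = tb (h j)` on `T` (compare the values at each `(b, t)`; all exponents of `𝐦` are `0` or `1`, and `T.card = Bs.card`). So the coefficient is the sum over such `T ∈ J.powersetCard Bs.card` of `∏ j ∈ T, κ j (tb (h j)) i`.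
On the other side `Finset.prod_sum` writes `∏ b ∈ Bs, ∑ j ∈ J_b, κ j (tb b) i` as a sum over choice functions `g` with `g b ∈ J_b`; `T = image g` is the bijection between choice functions and such sets `T`.
ALTERNATIVE that may be shorter: the algebra hom to `MvPolynomial ℕ ℚ` with `X (b, t) ↦ X b` if `t = tb b`, else `0`, reduces to `tb` constant; or induction on `Bs`.
`Gm_support`: every `T` in the sum has `T.card = m`. Define `Sup e` by `Sup 0 = {0}`, `Sup (e+1) = (Sup e ×ˢ (range V ×ˢ univ)).image (fun (d, b, t) => d + single (b, t) 1)`, so `(Sup e).card ≤ (V * k) ^ e`. Induction on `T`: the support of `∏ j ∈ T, ∑ t, X (h j, t) * C _` lies in `Sup T.card` (`MvPolynomial.support_mul`, `MvPolynomial.support_sum`). `C _ *` does not enlarge the support. -/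

namespace Vale.Agent.Lib.P314.D3

open MvPolynomial

/-- The functional value of the elementary symmetric sum with weights `θ`. -/
private noncomputable def Vm {k : ℕ} (J : Finset ℕ) (h : ℕ → ℕ) (f : ℕ → Fin k → ℚ) (φ : Fin k → ℚ)
    (m : ℕ) (θ : ℕ → ℚ) : ℚ :=
  ∑ T ∈ J.powersetCard m, ∑ i, φ i * ∏ j ∈ T, (θ (h j) * f j i)

private theorem Vm_step {k : ℕ} (J : Finset ℕ) (h : ℕ → ℕ) (f : ℕ → Fin k → ℚ) (φ : Fin k → ℚ)
    (m : ℕ) (b₀ : ℕ) (θ : ℕ → ℚ)
    (hz : ∀ s : ℚ, Vm J h f φ (m + 1) (Function.update θ b₀ s) = 0) :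
    Vm (J.filter fun j => h j ≠ b₀) h f
      (fun i => φ i * ∑ j ∈ J.filter (fun j => h j = b₀), f j i) m θ = 0 := by
  classical
  set J₀ := J.filter fun j => h j = b₀ with hJ₀
  set J' := J.filter fun j => h j ≠ b₀ with hJ'
  -- the polynomial in `s`
  let Q : Polynomial ℚ := ∑ T ∈ J.powersetCard (m + 1), ∑ i, Polynomial.C (φ i) *
    ∏ j ∈ T, (if h j = b₀ then Polynomial.X * Polynomial.C (f j i)
      else Polynomial.C (θ (h j) * f j i))
  have hQeval : ∀ s, Q.eval s = Vm J h f φ (m + 1) (Function.update θ b₀ s) := by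
    intro s
    simp only [Q, Vm, Polynomial.eval_finset_sum, Polynomial.eval_mul, Polynomial.eval_C,
      Polynomial.eval_prod]
    refine Finset.sum_congr rfl fun T _ => Finset.sum_congr rfl fun i _ => ?_
    congr 1
    refine Finset.prod_congr rfl fun j _ => ?_
    by_cases hj : h j = b₀
    · simp [hj]
      ring
    · simp [hj]
  have hQ : Q = 0 := by
    apply Polynomial.funext
    intro s
    rw [hQeval, hz]
    simp
  -- each product as monomial in X
  have hprod : ∀ (T : Finset ℕ) (i : Fin k), (∏ j ∈ T, (if h j = b₀ then Polynomial.X * Polynomial.C (f j i)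
      else Polynomial.C (θ (h j) * f j i))) =
      Polynomial.C ((∏ j ∈ T.filter (fun j => h j = b₀), f j i) *
        ∏ j ∈ T.filter (fun j => h j ≠ b₀), (θ (h j) * f j i)) *
        Polynomial.X ^ (T.filter (fun j => h j = b₀)).card := by
    intro T i
    rw [← Finset.prod_filter_mul_prod_filter_not T (fun j => h j = b₀)]
    rw [Finset.prod_congr rfl (g := fun j => Polynomial.X * Polynomial.C (f j i))
      (fun j hj => if_pos (Finset.mem_filter.1 hj).2)]
    rw [Finset.prod_congr rfl (s₁ := T.filter (fun j => ¬ h j = b₀))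
      (g := fun j => Polynomial.C (θ (h j) * f j i))
      (fun j hj => if_neg (Finset.mem_filter.1 hj).2)]
    rw [Finset.prod_mul_distrib, Finset.prod_const, ← map_prod, ← map_prod, map_mul]
    ring
  -- the coefficient of `X`
  have hcoeff : Q.coeff 1 = ∑ T ∈ (J.powersetCard (m + 1)).filter
      (fun T => (T.filter (fun j => h j = b₀)).card = 1), ∑ i, φ i *
        ((∏ j ∈ T.filter (fun j => h j = b₀), f j i) *
          ∏ j ∈ T.filter (fun j => h j ≠ b₀), (θ (h j) * f j i)) := by
    simp only [Q, Polynomial.finset_sum_coeff, hprod, Polynomial.coeff_C_mul, Polynomial.coeff_X_pow]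
    rw [Finset.sum_filter]
    refine Finset.sum_congr rfl fun T _ => ?_
    by_cases hc : (T.filter (fun j => h j = b₀)).card = 1
    · simp [hc]
    · have hc' : ¬ (1 = (T.filter (fun j => h j = b₀)).card) := fun h => hc h.symm
      simp [hc, hc']
  have hmain : ∑ p ∈ J₀ ×ˢ (J'.powersetCard m), ∑ i, φ i *
        (f p.1 i * ∏ j ∈ p.2, (θ (h j) * f j i)) = Q.coeff 1 := by
    rw [hcoeff]
    refine Finset.sum_bij (fun p _ => insert p.1 p.2) ?_ ?_ ?_ ?_
    · rintro ⟨j₀, T'⟩ hp
      obtain ⟨hj₀, hT'⟩ := Finset.mem_product.1 hp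
      obtain ⟨hT'sub, hT'c⟩ := Finset.mem_powersetCard.1 hT'
      have hj₀J := Finset.mem_filter.1 hj₀
      have hnot : j₀ ∉ T' := fun hc => (Finset.mem_filter.1 (hT'sub hc)).2 hj₀J.2
      refine Finset.mem_filter.2 ⟨Finset.mem_powersetCard.2 ⟨?_, ?_⟩, ?_⟩
      · intro j hj
        rcases Finset.mem_insert.1 hj with rfl | hj
        · exact hj₀J.1
        · exact (Finset.mem_filter.1 (hT'sub hj)).1
      · rw [Finset.card_insert_of_notMem hnot, hT'c]
      · have : (insert j₀ T').filter (fun j => h j = b₀) = {j₀} := by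
          ext j
          simp only [Finset.mem_filter, Finset.mem_insert, Finset.mem_singleton]
          constructor
          · rintro ⟨rfl | hj, hb⟩
            · rfl
            · exact absurd hb (Finset.mem_filter.1 (hT'sub hj)).2
          · rintro rfl
            exact ⟨Or.inl rfl, hj₀J.2⟩
        rw [this, Finset.card_singleton]
    · rintro ⟨j₀, T'⟩ hp ⟨j₁, T''⟩ hq heq
      obtain ⟨hj₀, hT'⟩ := Finset.mem_product.1 hp
      obtain ⟨hj₁, hT''⟩ := Finset.mem_product.1 hq
      obtain ⟨hT's, -⟩ := Finset.mem_powersetCard.1 hT'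
      obtain ⟨hT''s, -⟩ := Finset.mem_powersetCard.1 hT''
      have hb0 := (Finset.mem_filter.1 hj₀).2
      have hb1 := (Finset.mem_filter.1 hj₁).2
      simp only at heq
      have hf : ∀ (j₂ : ℕ) (U : Finset ℕ), h j₂ = b₀ → U ⊆ J' →
          (insert j₂ U).filter (fun j => h j ≠ b₀) = U := by
        intro j₂ U hj₂ hU
        ext j
        simp only [Finset.mem_filter, Finset.mem_insert]
        constructor
        · rintro ⟨rfl | hj, hb⟩
          · exact absurd hj₂ hb
          · exact hj
        · intro hj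
          exact ⟨Or.inr hj, (Finset.mem_filter.1 (hU hj)).2⟩
      have hg : ∀ (j₂ : ℕ) (U : Finset ℕ), h j₂ = b₀ → U ⊆ J' →
          (insert j₂ U).filter (fun j => h j = b₀) = {j₂} := by
        intro j₂ U hj₂ hU
        ext j
        simp only [Finset.mem_filter, Finset.mem_insert, Finset.mem_singleton]
        constructor
        · rintro ⟨rfl | hj, hb⟩
          · rfl
          · exact absurd hb (Finset.mem_filter.1 (hU hj)).2
        · rintro rfl
          exact ⟨Or.inl rfl, hj₂⟩
      have h1 : T' = T'' := by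
        rw [← hf j₀ T' hb0 hT's, heq, hf j₁ T'' hb1 hT''s]
      have h2 : ({j₀} : Finset ℕ) = {j₁} := by
        rw [← hg j₀ T' hb0 hT's, heq, hg j₁ T'' hb1 hT''s]
      have h3 : j₀ = j₁ := Finset.singleton_injective h2
      simp [h1, h3]
    · intro T hT
      obtain ⟨hTp, hc⟩ := Finset.mem_filter.1 hT
      obtain ⟨hTs, hTc⟩ := Finset.mem_powersetCard.1 hTp
      obtain ⟨j₀, hj₀⟩ := Finset.card_eq_one.1 hc
      have hj₀T : j₀ ∈ T.filter (fun j => h j = b₀) := by
        rw [hj₀]
        exact Finset.mem_singleton_self _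
      have hj₀' := Finset.mem_filter.1 hj₀T
      refine ⟨(j₀, T.filter (fun j => h j ≠ b₀)), ?_, ?_⟩
      · refine Finset.mem_product.2 ⟨Finset.mem_filter.2 ⟨hTs hj₀'.1, hj₀'.2⟩,
          Finset.mem_powersetCard.2 ⟨?_, ?_⟩⟩
        · intro j hj
          obtain ⟨hj1, hj2⟩ := Finset.mem_filter.1 hj
          exact Finset.mem_filter.2 ⟨hTs hj1, hj2⟩
        · have := Finset.card_filter_add_card_filter_not (s := T) (fun j => h j = b₀)
          rw [hc, hTc] at this
          have h' : (T.filter (fun j => ¬ h j = b₀)).card = m := by omega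
          exact h'
      · ext j
        simp only [Finset.mem_insert, Finset.mem_filter]
        constructor
        · rintro (rfl | ⟨hj, _⟩)
          · exact hj₀'.1
          · exact hj
        · intro hj
          by_cases hb : h j = b₀
          · left
            have : j ∈ T.filter (fun j => h j = b₀) := Finset.mem_filter.2 ⟨hj, hb⟩
            rw [hj₀] at this
            exact Finset.mem_singleton.1 this
          · exact Or.inr ⟨hj, hb⟩
    · rintro ⟨j₀, T'⟩ hp
      obtain ⟨hj₀, hT'⟩ := Finset.mem_product.1 hp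
      obtain ⟨hT's, -⟩ := Finset.mem_powersetCard.1 hT'
      have hb0 := (Finset.mem_filter.1 hj₀).2
      have hgg : (insert j₀ T').filter (fun j => h j = b₀) = {j₀} := by
        ext j
        simp only [Finset.mem_filter, Finset.mem_insert, Finset.mem_singleton]
        constructor
        · rintro ⟨rfl | hj, hb⟩
          · rfl
          · exact absurd hb (Finset.mem_filter.1 (hT's hj)).2
        · rintro rfl
          exact ⟨Or.inl rfl, hb0⟩
      have hff : (insert j₀ T').filter (fun j => h j ≠ b₀) = T' := by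
        ext j
        simp only [Finset.mem_filter, Finset.mem_insert]
        constructor
        · rintro ⟨rfl | hj, hb⟩
          · exact absurd hb0 hb
          · exact hj
        · intro hj
          exact ⟨Or.inr hj, (Finset.mem_filter.1 (hT's hj)).2⟩
      simp only [hgg, hff, Finset.prod_singleton]
  have hfinal : Vm J' h f (fun i => φ i * ∑ j ∈ J₀, f j i) m θ =
      ∑ p ∈ J₀ ×ˢ (J'.powersetCard m), ∑ i, φ i *
        (f p.1 i * ∏ j ∈ p.2, (θ (h j) * f j i)) := by
    rw [Finset.sum_product]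
    simp only [Vm]
    rw [Finset.sum_comm (s := J₀) (t := J'.powersetCard m)]
    refine Finset.sum_congr rfl fun T' _ => ?_
    rw [Finset.sum_comm (s := J₀) (t := Finset.univ)]
    refine Finset.sum_congr rfl fun i _ => ?_
    rw [mul_assoc, Finset.sum_mul, Finset.mul_sum]
  rw [hfinal, hmain, hQ]
  simp

/-- Extraction of a multilinear coefficient by induction on the buckets. -/
private theorem Vm_prod {k : ℕ} (h : ℕ → ℕ) (f : ℕ → Fin k → ℚ) (Bs : Finset ℕ) :
    ∀ (J : Finset ℕ) (φ : Fin k → ℚ), (∀ θ : ℕ → ℚ, Vm J h f φ Bs.card θ = 0) →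
      ∑ i, φ i * ∏ b ∈ Bs, ∑ j ∈ J.filter (fun j => h j = b), f j i = 0 := by
  classical
  induction Bs using Finset.induction_on with
  | empty =>
    intro J φ hz
    have := hz 0
    simpa [Vm] using this
  | insert b₀ Bs hb ih =>
    intro J φ hz
    rw [Finset.card_insert_of_notMem hb] at hz
    have hstep : ∀ θ, Vm (J.filter fun j => h j ≠ b₀) h f
        (fun i => φ i * ∑ j ∈ J.filter (fun j => h j = b₀), f j i) Bs.card θ = 0 := fun θ =>
      Vm_step J h f φ Bs.card b₀ θ (fun s => hz _)
    have := ih _ _ hstep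
    rw [← this]
    refine Finset.sum_congr rfl fun i _ => ?_
    rw [Finset.prod_insert hb, mul_assoc]
    congr 2
    refine Finset.prod_congr rfl fun b hbB => ?_
    have hne : b ≠ b₀ := by rintro rfl; exact hb hbB
    rw [Finset.filter_filter]
    refine Finset.sum_congr ?_ fun _ _ => rfl
    ext j
    simp only [Finset.mem_filter]
    constructor
    · rintro ⟨hj, hjb⟩
      exact ⟨hj, by rw [hjb]; exact hne, hjb⟩
    · rintro ⟨hj, -, hjb⟩
      exact ⟨hj, hjb⟩

theorem Gm_ne_zero {k : ℕ} (J : Finset ℕ) (h : ℕ → ℕ) (κ : ℕ → Fin k → Fin k → ℚ) (φ : Fin k → ℚ)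
    (Bs : Finset ℕ) (tb : ℕ → Fin k)
    (hne : ∑ i, φ i * ∏ b ∈ Bs, ∑ j ∈ J.filter (fun j => h j = b), κ j (tb b) i ≠ 0) :
    Gm J h κ φ Bs.card ≠ 0 := by
  classical
  intro hG
  apply hne
  have key := Vm_prod h (fun j i => κ j (tb (h j)) i) Bs J φ ?_
  · rw [← key]
    refine Finset.sum_congr rfl fun i _ => ?_
    congr 1
    refine Finset.prod_congr rfl fun b _ => Finset.sum_congr rfl fun j hj => ?_
    rw [(Finset.mem_filter.1 hj).2]
  · intro θ
    have := congrArg (MvPolynomial.eval (fun p : ℕ × Fin k => if p.2 = tb p.1 then θ p.1 else 0)) hG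
    rw [map_zero] at this
    rw [← this]
    simp only [Vm, Gm, map_sum, map_mul, map_prod, MvPolynomial.eval_C, MvPolynomial.eval_X]
    refine Finset.sum_congr rfl fun T _ => Finset.sum_congr rfl fun i _ => ?_
    congr 1
    refine Finset.prod_congr rfl fun j _ => ?_
    rw [Finset.sum_eq_single (tb (h j))]
    · simp
    · intro t _ ht
      simp [ht]
    · simp

/-- Exponent vectors of products of `e` variables `X (b, t)`, `b < V`. -/
private noncomputable def Sup (k V : ℕ) : ℕ → Finset ((ℕ × Fin k) →₀ ℕ)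
  | 0 => {0}
  | e + 1 => ((Sup k V e) ×ˢ (Finset.range V ×ˢ Finset.univ)).image
      (fun p => p.1 + Finsupp.single p.2 1)

private theorem Sup_card (k V e : ℕ) : (Sup k V e).card ≤ (V * k) ^ e := by
  induction e with
  | zero => simp [Sup]
  | succ e ih =>
    refine Finset.card_image_le.trans ?_
    rw [Finset.card_product, Finset.card_product, Finset.card_range, Finset.card_univ,
      Fintype.card_fin, pow_succ]
    exact Nat.mul_le_mul_right _ ih

private theorem prod_support {k : ℕ} (h : ℕ → ℕ) (κ' : ℕ → Fin k → ℚ) (V : ℕ) (T : Finset ℕ)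
    (hh : ∀ j ∈ T, h j < V) :
    (∏ j ∈ T, ∑ t, (X (h j, t) : MvPolynomial (ℕ × Fin k) ℚ) * C (κ' j t)).support
      ⊆ Sup k V T.card := by
  classical
  induction T using Finset.induction_on with
  | empty =>
    simp only [Finset.prod_empty, Finset.card_empty, Sup]
    intro m hm
    rw [MvPolynomial.support_one] at hm
    exact hm
  | insert b T hb ih =>
    rw [Finset.prod_insert hb, Finset.card_insert_of_notMem hb, mul_comm]
    intro m hm
    obtain ⟨p, hp, q, hq, rfl⟩ := Finset.mem_add.1 (MvPolynomial.support_mul _ _ hm)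
    have hT := ih (fun j hj => hh j (Finset.mem_insert_of_mem hj)) hp
    obtain ⟨t, ht, hqt⟩ := Finset.mem_biUnion.1 (MvPolynomial.support_sum hq)
    have hq1 : q = Finsupp.single (h b, t) 1 := by
      have : (X (h b, t) * C (κ' b t) : MvPolynomial (ℕ × Fin k) ℚ) =
          monomial (Finsupp.single (h b, t) 1) (κ' b t) := by
        rw [mul_comm, C_mul_X_eq_monomial]
      rw [this] at hqt
      exact Finset.mem_singleton.1 (MvPolynomial.support_monomial_subset hqt)
    refine Finset.mem_image.2 ⟨(p, (h b, t)), Finset.mem_product.2 ⟨hT, Finset.mem_product.2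
      ⟨Finset.mem_range.2 (hh b (Finset.mem_insert_self _ _)), Finset.mem_univ _⟩⟩, ?_⟩
    rw [hq1]

theorem Gm_support {k : ℕ} (J : Finset ℕ) (h : ℕ → ℕ) (κ : ℕ → Fin k → Fin k → ℚ) (φ : Fin k → ℚ)
    (m V : ℕ) (hh : ∀ j ∈ J, h j < V) : (Gm J h κ φ m).support.card ≤ (V * k) ^ m := by
  classical
  refine le_trans (Finset.card_le_card ?_) (Sup_card k V m)
  intro q hq
  obtain ⟨T, hT, hqT⟩ := Finset.mem_biUnion.1 (MvPolynomial.support_sum hq)
  obtain ⟨i, _, hqi⟩ := Finset.mem_biUnion.1 (MvPolynomial.support_sum hqT)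
  obtain ⟨hTJ, hTc⟩ := Finset.mem_powersetCard.1 hT
  have hq' : q ∈ (∏ j ∈ T, ∑ t, (X (h j, t) : MvPolynomial (ℕ × Fin k) ℚ) * C (κ j t i)).support := by
    by_contra hn
    have : coeff q (C (φ i) * ∏ j ∈ T, ∑ t, (X (h j, t) : MvPolynomial (ℕ × Fin k) ℚ) * C (κ j t i)) = 0 := by
      rw [MvPolynomial.coeff_C_mul, MvPolynomial.notMem_support_iff.1 hn, mul_zero]
    exact (MvPolynomial.mem_support_iff.1 hqi) this
  have := prod_support h (fun j t => κ j t i) V T (fun j hj => hh j (hTJ hj)) hq'
  rwa [hTc] at this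

end Vale.Agent.Lib.P314.D3
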