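import Vale.Agent.Lib.P314.ExpSum
import Vale.Agent.Lib.P314.Hit
import Vale.Agent.Lib.P314.D3.Chain
import Vale.Agent.Lib.P314.D3.Bits
import Vale.Agent.Lib.P314.D3.Condenser
import Vale.Agent.Lib.P314.D3.GmCoeff
import Vale.Agent.Lib.P314.D3.Expand

/-! MODULE D-Core. The commutative core: assembly of the modules. See the proof below. -/

namespace Vale.Agent.Lib.P314.D3

open Vale.Agent.Lib.P314

theorem multilin {k : ℕ} (U : Finset ℕ) (w : ℕ → Fin k → ℚ) (K : ℕ → Fin k → Fin k → ℚ)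
    (hw : ∀ b ∈ U, w b ∈ Submodule.span ℚ (Set.range (K b))) (φ : Fin k → ℚ)
    (h : ∑ i, φ i * ∏ b ∈ U, w b i ≠ 0) :
    ∃ tb : ℕ → Fin k, ∑ i, φ i * ∏ b ∈ U, K b (tb b) i ≠ 0 := by
  classical
  induction U using Finset.induction_on generalizing φ with
  | empty =>
    have hk : Nonempty (Fin k) := by
      by_contra hne
      rw [not_nonempty_iff] at hne
      exact h (by simp)
    exact ⟨fun _ => hk.some, by simpa using h⟩
  | insert b U hb ih =>
    have h1 : ∑ i, (φ i * w b i) * ∏ b' ∈ U, w b' i ≠ 0 := by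
      intro h0
      apply h
      rw [← h0]
      refine Finset.sum_congr rfl fun i _ => ?_
      rw [Finset.prod_insert hb]
      ring
    obtain ⟨tb, htb⟩ := ih (fun b' hb' => hw b' (Finset.mem_insert_of_mem hb')) _ h1
    -- the functional in the coordinate `b`
    let ψ : (Fin k → ℚ) →ₗ[ℚ] ℚ :=
      { toFun := fun y => ∑ i, φ i * y i * ∏ b' ∈ U, K b' (tb b') i
        map_add' := fun y y' => by
          simp only [Pi.add_apply, ← Finset.sum_add_distrib]
          refine Finset.sum_congr rfl fun i _ => ?_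
          ring
        map_smul' := fun c y => by
          simp only [Pi.smul_apply, smul_eq_mul, RingHom.id_apply, Finset.mul_sum]
          refine Finset.sum_congr rfl fun i _ => ?_
          ring }
    have hψ : ψ (w b) ≠ 0 := htb
    have hgen : ∃ t, ψ (K b t) ≠ 0 := by
      by_contra hall
      push Not at hall
      have hle : Submodule.span ℚ (Set.range (K b)) ≤ LinearMap.ker ψ := by
        refine Submodule.span_le.2 ?_
        rintro _ ⟨t, rfl⟩
        exact hall t
      exact hψ (hle (hw b (Finset.mem_insert_self b U)))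
    obtain ⟨t, ht⟩ := hgen
    refine ⟨Function.update tb b t, ?_⟩
    intro h0
    apply ht
    rw [← h0]
    show ∑ i, φ i * K b t i * ∏ b' ∈ U, K b' (tb b') i = _
    refine Finset.sum_congr rfl fun i _ => ?_
    rw [Finset.prod_insert hb, Function.update_self]
    have : ∏ b' ∈ U, K b' (Function.update tb b t b') i = ∏ b' ∈ U, K b' (tb b') i := by
      refine Finset.prod_congr rfl fun b' hb' => ?_
      rw [Function.update_of_ne (by rintro rfl; exact hb hb')]
    rw [this]
    ring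

/-- Rewriting the vectors of the condenser on the block of bucket `b`. -/
theorem sum_block {k n d : ℕ} (x : ℕ → Fin n → Fin k → ℚ) (h : ℕ → ℕ) (b : ℕ) (s : ℕ → ℚ)
    (i : Fin k) :
    (∑ c' : Fin (d * n), s (c' : ℕ) •
        (fun c : Fin (d * n) => if h (finProdFinEquiv.symm c).1 = b then
          x (finProdFinEquiv.symm c).1 (finProdFinEquiv.symm c).2 else 0) c') i =
      ∑ j ∈ (Finset.range d).filter (fun j => h j = b), ∑ a : Fin n, s (j * n + (a : ℕ)) * x j a i := by
  classical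
  rw [Finset.sum_apply]
  rw [← Equiv.sum_comp (finProdFinEquiv (m := d) (n := n))]
  rw [Fintype.sum_prod_type]
  simp only [Equiv.symm_apply_apply, Pi.smul_apply, smul_eq_mul, finProdFinEquiv_apply_val]
  rw [Finset.sum_filter, Finset.sum_range]
  refine Finset.sum_congr rfl fun j _ => ?_
  by_cases hj : h j = b
  · simp only [hj, if_true]
    refine Finset.sum_congr rfl fun a _ => ?_
    rw [add_comm, mul_comm (n) (j : ℕ)]
  · simp [hj]

/-- Core: if the functional `φ` is nonzero on some value of `∏_{j<d} (1 + ∑ₐ z j a x j a)` in the algebra `Fin k → ℚ`,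
then it is nonzero at `z = τ • betaD` for parameters in an explicit small range. -/
theorem core {k n d L : ℕ} (hn : 0 < n) (hL : d ≤ 2 ^ L) (x : ℕ → Fin n → Fin k → ℚ) (φ : Fin k → ℚ)
    (z : ℕ → Fin n → ℚ)
    (h : ∑ i, φ i * ∏ j ∈ Finset.range d, (1 + ∑ a, z j a * x j a i) ≠ 0) :
    ∃ B : List ℕ, B.length < k ∧ (∀ b ∈ B, b < L) ∧ ∃ σ, σ < k ^ 3 * (d * n) + 1 ∧
      ∃ r₃, r₃ < (2 ^ k * k) ^ k + 1 ∧ ∃ τ : ℕ, τ ≤ d ∧
        ∑ i, φ i * ∏ j ∈ Finset.range d,
          (1 + ∑ a, ((τ : ℚ) * betaD n k B σ r₃ j a) * x j a i) ≠ 0 := by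
  classical
  obtain ⟨T, hTd, hTk, a, ha⟩ := exists_support hn x φ z h
  have hk : 0 < k := by omega
  have hTlt : ∀ j ∈ T, j < d := fun j hj => Finset.mem_range.1 (hTd hj)
  obtain ⟨B, hBlen, hBL, hinj⟩ := exists_bits T L (fun j hj => lt_of_lt_of_le (hTlt j hj) hL)
  have hBk : B.length < k := by omega
  refine ⟨B, hBk, hBL, ?_⟩
  set h' := bucket B with hh'
  -- the columns
  let M : ℕ → Fin (d * n) → Fin k → ℚ := fun b c =>
    if h' (finProdFinEquiv.symm c).1 = b then
      x (finProdFinEquiv.symm c).1 (finProdFinEquiv.symm c).2 else 0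
  have hcond := fun b => condenser (M b)
  choose Bad hBadcard hBad using hcond
  let Bs := T.image h'
  have hBscard : Bs.card = T.card := Finset.card_image_of_injOn hinj
  -- a good seed
  obtain ⟨σ, hσ, hσBad⟩ : ∃ σ ∈ Finset.range (k ^ 3 * (d * n) + 1), σ ∉ Bs.biUnion Bad := by
    refine Finset.exists_mem_notMem_of_card_lt_card ?_
    rw [Finset.card_range]
    refine lt_of_le_of_lt (Finset.card_biUnion_le.trans ?_) (Nat.lt_succ_self _)
    refine (Finset.sum_le_card_nsmul _ _ (k ^ 2 * (d * n)) fun b _ => hBadcard b).trans ?_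
    rw [hBscard, smul_eq_mul]
    calc T.card * (k ^ 2 * (d * n)) ≤ k * (k ^ 2 * (d * n)) := Nat.mul_le_mul_right _ hTk.le
      _ = k ^ 3 * (d * n) := by ring
  refine ⟨σ, Finset.mem_range.1 hσ, ?_⟩
  -- the vectors
  let κ : ℕ → Fin k → Fin k → ℚ := fun j t i =>
    ∑ a : Fin n, ((σ : ℚ) ^ (((t : ℕ) + 1) * (j * n + (a : ℕ)))) * x j a i
  let K : ℕ → Fin k → Fin k → ℚ := fun j t =>
    ∑ c' : Fin (d * n), ((σ : ℚ) ^ (((t : ℕ) + 1) * (c' : ℕ))) • M (h' j) c'
  have hKκ : ∀ (b : ℕ) (t : Fin k) (i : Fin k), (∑ c' : Fin (d * n), ((σ : ℚ) ^ (((t : ℕ) + 1) * (c' : ℕ))) • M b c') i =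
      ∑ j ∈ (Finset.range d).filter (fun j => h' j = b), κ j t i := by
    intro b t i
    exact sum_block x h' b (fun c => (σ : ℚ) ^ (((t : ℕ) + 1) * c)) i
  -- every factor is in the span
  have hspan : ∀ j ∈ T, x j (a j) ∈ Submodule.span ℚ (Set.range (K j)) := by
    intro j hj
    have hjd := hTlt j hj
    have hb : h' j ∈ Bs := Finset.mem_image_of_mem _ hj
    have hσb : σ ∉ Bad (h' j) := fun hc => hσBad (Finset.mem_biUnion.2 ⟨_, hb, hc⟩)
    have := hBad (h' j) σ hσb (finProdFinEquiv (⟨j, hjd⟩, a j))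
    have hM : M (h' j) (finProdFinEquiv (⟨j, hjd⟩, a j)) = x j (a j) := by
      simp only [M, Equiv.symm_apply_apply]
      exact if_pos trivial
    rwa [hM] at this
  obtain ⟨tj, htj⟩ := multilin T (fun j => x j (a j)) K hspan φ ha
  -- transfer to buckets
  let inv : ℕ → ℕ := Function.invFunOn h' (T : Set ℕ)
  have hinv : ∀ j ∈ T, inv (h' j) = j := fun j hj =>
    hinj (Function.invFunOn_mem ⟨j, Finset.mem_coe.2 hj, rfl⟩) (Finset.mem_coe.2 hj)
      (Function.invFunOn_eq ⟨j, Finset.mem_coe.2 hj, rfl⟩)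
  let tb : ℕ → Fin k := fun b => tj (inv b)
  have hne : ∑ i, φ i * ∏ b ∈ Bs, ∑ j ∈ (Finset.range d).filter (fun j => h' j = b), κ j (tb b) i ≠ 0 := by
    convert htj using 3 with i
    rw [Finset.prod_image hinj]
    refine Finset.prod_congr rfl fun j hj => ?_
    have : tb (h' j) = tj j := by simp only [tb, hinv j hj]
    rw [this, ← hKκ]
  have hG := Gm_ne_zero (Finset.range d) h' κ φ Bs tb hne
  have hsupp := Gm_support (Finset.range d) h' κ φ Bs.card (2 ^ B.length)
    (fun j _ => bucket_lt B j)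
  have hsupp' : (Gm (Finset.range d) h' κ φ Bs.card).support.card ≤ (2 ^ k * k) ^ k := by
    refine hsupp.trans ?_
    have hbase : 2 ^ B.length * k ≤ 2 ^ k * k :=
      Nat.mul_le_mul_right _ (Nat.pow_le_pow_right (by norm_num) hBk.le)
    have hbase1 : 1 ≤ 2 ^ k * k := Nat.mul_pos (by positivity) hk
    calc (2 ^ B.length * k) ^ Bs.card ≤ (2 ^ k * k) ^ Bs.card := Nat.pow_le_pow_left hbase _
      _ ≤ (2 ^ k * k) ^ k := Nat.pow_le_pow_right hbase1 (by omega)
  -- the exponent
  let P : ℕ × Fin k → ℕ := fun p => pr k p.1 p.2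
  have hP : ∀ p, (P p).Prime := fun p => pr_prime k p.1 p.2
  have hPinj : Function.Injective P := by
    intro p p' hpp
    exact Prod.ext (pr_inj hpp).1 (pr_inj hpp).2
  have hfew := few_zeros P hP hPinj _ hG
  obtain ⟨r₃, hr₃, hr₃ne⟩ := Few.exists_not (B := (2 ^ k * k) ^ k + 1) hfew (by omega)
  refine ⟨r₃, hr₃, ?_⟩
  let ξ : ℕ × Fin k → ℚ := fun p => (P p : ℚ) ^ r₃
  have hexp := fun τ : ℚ => eval_expand (Finset.range d) h' κ φ ξ τ
  rw [Finset.card_range] at hexp
  have hBsd : Bs.card ≤ d := by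
    rw [hBscard]
    simpa using Finset.card_le_card hTd
  obtain ⟨τ, hτ, hτne⟩ := exists_tau (fun m => MvPolynomial.eval ξ (Gm (Finset.range d) h' κ φ m))
    d Bs.card hBsd hr₃ne
  refine ⟨τ, hτ, ?_⟩
  rw [← hexp τ] at hτne
  convert hτne using 6 with i _ j _
  simp only [betaD, κ, ξ, P, Finset.mul_sum, Finset.sum_mul]
  rw [Finset.sum_comm]
  refine Finset.sum_congr rfl fun t _ => Finset.sum_congr rfl fun a' _ => ?_
  ring

end Vale.Agent.Lib.P314.D3
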