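import Vale.Agent.Lib.P314.D3.Defs

/-! Hashing positions by residues modulo a prime: the generator with residue buckets. -/

namespace Vale.Agent.Lib.P314.D3

open Vale.Agent.Lib.P314

/-- The direction of the generator at position `j`, letter `a`, with buckets given by the residue of `j` modulo `q`. -/
noncomputable def betaM (n k q : ℕ) (σ r₃ : ℕ) (j : ℕ) (a : Fin n) : ℚ :=
  ∑ t : Fin k, ((pr k (j % q) t : ℕ) : ℚ) ^ r₃ * (σ : ℚ) ^ (((t : ℕ) + 1) * (j * n + (a : ℕ)))

/-- The weights of the generator with residue buckets: `p ^ r + τ * betaM`, where `p` is the prime attached to `(j, a)`. -/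
noncomputable def genM (n k q : ℕ) (r σ r₃ τ : ℕ) : ℕ → Fin n → ℚ :=
  fun j a => (pr n j a : ℚ) ^ r + (τ : ℚ) * betaM n k q σ r₃ j a

private theorem two_pow_card_primeFactors_le (N : ℕ) (hN : N ≠ 0) : 2 ^ N.primeFactors.card ≤ N := by
  calc 2 ^ N.primeFactors.card = ∏ _p ∈ N.primeFactors, 2 := by simp
    _ ≤ ∏ p ∈ N.primeFactors, p :=
        Finset.prod_le_prod' fun p hp => (Nat.prime_of_mem_primeFactors hp).two_le
    _ ≤ N := Nat.le_of_dvd (Nat.pos_of_ne_zero hN) (Nat.prod_primeFactors_dvd N)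

/-- Among the first `m ^ 2 * L + 1` primes one separates a set of at most `m` numbers below `2 ^ L`. -/
theorem exists_mod (S : Finset ℕ) (L m : ℕ) (hS : ∀ j ∈ S, j < 2 ^ L) (hc : S.card ≤ m) :
    ∃ e, e ≤ m ^ 2 * L ∧ Set.InjOn (fun j => j % Nat.nth Nat.Prime e) (S : Set ℕ) := by
  classical
  -- the product of the differences
  let PP : ℕ := ∏ u ∈ S, ∏ v ∈ S, (if u < v then v - u else 1)
  have hpos : PP ≠ 0 := by
    refine Finset.prod_ne_zero_iff.2 fun u _ => Finset.prod_ne_zero_iff.2 fun v _ => ?_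
    split_ifs with h
    · omega
    · norm_num
  have hle : PP ≤ 2 ^ (m ^ 2 * L) := by
    have h1 : ∀ u ∈ S, ∀ v ∈ S, (if u < v then v - u else 1) ≤ 2 ^ L := by
      intro u _ v hv
      have := hS v hv
      have h2 : 1 ≤ 2 ^ L := Nat.one_le_two_pow
      split_ifs <;> omega
    calc PP ≤ ∏ _u ∈ S, ∏ _v ∈ S, 2 ^ L :=
          Finset.prod_le_prod' fun u hu => Finset.prod_le_prod' fun v hv => h1 u hu v hv
      _ = 2 ^ (S.card * S.card * L) := by
          simp only [Finset.prod_const]
          rw [← pow_mul, ← pow_mul]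
          congr 1
          ring
      _ ≤ 2 ^ (m ^ 2 * L) := by
          refine Nat.pow_le_pow_right (by norm_num) (Nat.mul_le_mul_right _ ?_)
          rw [sq]
          exact Nat.mul_le_mul hc hc
  have hcard : PP.primeFactors.card ≤ m ^ 2 * L := by
    have := (two_pow_card_primeFactors_le PP hpos).trans hle
    exact (Nat.pow_le_pow_iff_right (by norm_num)).1 this
  -- a prime outside
  obtain ⟨p, hp, hpn⟩ : ∃ p ∈ (Finset.range (m ^ 2 * L + 1)).image (Nat.nth Nat.Prime),
      p ∉ PP.primeFactors := by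
    refine Finset.exists_mem_notMem_of_card_lt_card ?_
    rw [Finset.card_image_of_injective _ (Nat.nth_injective Nat.infinite_setOf_prime),
      Finset.card_range]
    omega
  obtain ⟨e, he, rfl⟩ := Finset.mem_image.1 hp
  refine ⟨e, by simpa [Nat.lt_succ_iff] using he, ?_⟩
  have hprime : (Nat.nth Nat.Prime e).Prime := Nat.prime_nth_prime e
  have hndvd : ¬ Nat.nth Nat.Prime e ∣ PP := fun hd =>
    hpn (Nat.mem_primeFactors.2 ⟨hprime, hd, hpos⟩)
  have key : ∀ u ∈ S, ∀ v ∈ S, u < v → u % Nat.nth Nat.Prime e ≠ v % Nat.nth Nat.Prime e := by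
    intro u hu v hv huv hmod
    apply hndvd
    have hd : Nat.nth Nat.Prime e ∣ v - u := (Nat.modEq_iff_dvd' huv.le).1 hmod
    have h1 : (if u < v then v - u else 1) ∣ ∏ v' ∈ S, (if u < v' then v' - u else 1) :=
      Finset.dvd_prod_of_mem (fun v' => if u < v' then v' - u else 1) hv
    have h2 : (∏ v' ∈ S, (if u < v' then v' - u else 1)) ∣ PP :=
      Finset.dvd_prod_of_mem (fun u' => ∏ v' ∈ S, if u' < v' then v' - u' else 1) hu
    rw [if_pos huv] at h1
    exact hd.trans (h1.trans h2)
  intro u hu v hv huv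
  simp only at huv
  rcases lt_trichotomy u v with h | h | h
  · exact absurd huv (key u hu v hv h)
  · exact h
  · exact absurd huv.symm (key v hv u hu h)

end Vale.Agent.Lib.P314.D3
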