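import Vale.Agent.Lib.P314.D3.Core
import Vale.Agent.Lib.P314.D3.ModHash

/-! The commutative core with residue buckets. Same proof as `core`, with `exists_mod` in place of `exists_bits`. -/

namespace Vale.Agent.Lib.P314.D3

open Vale.Agent.Lib.P314

/-- Core with residue buckets: if the functional `φ` is nonzero on some value of `∏_{j<d} (1 + ∑ₐ z j a x j a)` in the algebra `Fin k → ℚ`,
then it is nonzero at `z = τ • betaD` for parameters in an explicit small range. -/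
theorem coreRes {k n d L : ℕ} (hn : 0 < n) (hL : d ≤ 2 ^ L) (x : ℕ → Fin n → Fin k → ℚ) (φ : Fin k → ℚ)
    (z : ℕ → Fin n → ℚ)
    (h : ∑ i, φ i * ∏ j ∈ Finset.range d, (1 + ∑ a, z j a * x j a i) ≠ 0) :
    ∃ e, e ≤ k ^ 2 * L ∧ ∃ σ, σ < k ^ 3 * (d * n) + 1 ∧
      ∃ r₃, r₃ < (Nat.nth Nat.Prime e * k) ^ k + 1 ∧ ∃ τ : ℕ, τ ≤ d ∧
        ∑ i, φ i * ∏ j ∈ Finset.range d,
          (1 + ∑ a, ((τ : ℚ) * betaM n k (Nat.nth Nat.Prime e) σ r₃ j a) * x j a i) ≠ 0 := by
  classical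
  obtain ⟨T, hTd, hTk, a, ha⟩ := exists_support hn x φ z h
  have hk : 0 < k := by omega
  have hTlt : ∀ j ∈ T, j < d := fun j hj => Finset.mem_range.1 (hTd hj)
  obtain ⟨e, he, hinj⟩ := exists_mod T L k (fun j hj => lt_of_lt_of_le (hTlt j hj) hL) hTk.le
  refine ⟨e, he, ?_⟩
  have hqpos : 0 < Nat.nth Nat.Prime e := (Nat.prime_nth_prime e).pos
  set q := Nat.nth Nat.Prime e with hq
  set h' : ℕ → ℕ := fun j => j % q with hh'
  -- the columns
  let M : ℕ → Fin (d * n) → Fin k → ℚ := fun b c =>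
    if h' (finProdFinEquiv.symm c).1 = b then
      x (finProdFinEquiv.symm c).1 (finProdFinEquiv.symm c).2 else 0
  have hcond := fun b => condenser (M b)
  choose Bad hBadcard hBad using hcond
  let Bs := T.image h'
  have hBscard : Bs.card = T.card := Finset.card_image_of_injOn hinj
  -- a good seed
  obtain ⟨σ, hσ, hσBad⟩ : ∃ σ ∈ Finset.range (k ^ 3 * (d * n) + 1), σ ∉ Bs.biUnion Bad := by
    refine Finset.exists_mem_notMem_of_card_lt_card ?_
    rw [Finset.card_range]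
    refine lt_of_le_of_lt (Finset.card_biUnion_le.trans ?_) (Nat.lt_succ_self _)
    refine (Finset.sum_le_card_nsmul _ _ (k ^ 2 * (d * n)) fun b _ => hBadcard b).trans ?_
    rw [hBscard, smul_eq_mul]
    calc T.card * (k ^ 2 * (d * n)) ≤ k * (k ^ 2 * (d * n)) := Nat.mul_le_mul_right _ hTk.le
      _ = k ^ 3 * (d * n) := by ring
  refine ⟨σ, Finset.mem_range.1 hσ, ?_⟩
  -- the vectors
  let κ : ℕ → Fin k → Fin k → ℚ := fun j t i =>
    ∑ a : Fin n, ((σ : ℚ) ^ (((t : ℕ) + 1) * (j * n + (a : ℕ)))) * x j a i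
  let K : ℕ → Fin k → Fin k → ℚ := fun j t =>
    ∑ c' : Fin (d * n), ((σ : ℚ) ^ (((t : ℕ) + 1) * (c' : ℕ))) • M (h' j) c'
  have hKκ : ∀ (b : ℕ) (t : Fin k) (i : Fin k), (∑ c' : Fin (d * n), ((σ : ℚ) ^ (((t : ℕ) + 1) * (c' : ℕ))) • M b c') i =
      ∑ j ∈ (Finset.range d).filter (fun j => h' j = b), κ j t i := by
    intro b t i
    exact sum_block x h' b (fun c => (σ : ℚ) ^ (((t : ℕ) + 1) * c)) i
  -- every factor is in the span
  have hspan : ∀ j ∈ T, x j (a j) ∈ Submodule.span ℚ (Set.range (K j)) := by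
    intro j hj
    have hjd := hTlt j hj
    have hb : h' j ∈ Bs := Finset.mem_image_of_mem _ hj
    have hσb : σ ∉ Bad (h' j) := fun hc => hσBad (Finset.mem_biUnion.2 ⟨_, hb, hc⟩)
    have := hBad (h' j) σ hσb (finProdFinEquiv (⟨j, hjd⟩, a j))
    have hM : M (h' j) (finProdFinEquiv (⟨j, hjd⟩, a j)) = x j (a j) := by
      simp only [M, Equiv.symm_apply_apply]
      exact if_pos trivial
    rwa [hM] at this
  obtain ⟨tj, htj⟩ := multilin T (fun j => x j (a j)) K hspan φ ha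
  -- transfer to buckets
  let inv : ℕ → ℕ := Function.invFunOn h' (T : Set ℕ)
  have hinv : ∀ j ∈ T, inv (h' j) = j := fun j hj =>
    hinj (Function.invFunOn_mem ⟨j, Finset.mem_coe.2 hj, rfl⟩) (Finset.mem_coe.2 hj)
      (Function.invFunOn_eq ⟨j, Finset.mem_coe.2 hj, rfl⟩)
  let tb : ℕ → Fin k := fun b => tj (inv b)
  have hne : ∑ i, φ i * ∏ b ∈ Bs, ∑ j ∈ (Finset.range d).filter (fun j => h' j = b), κ j (tb b) i ≠ 0 := by
    convert htj using 3 with i
    rw [Finset.prod_image hinj]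
    refine Finset.prod_congr rfl fun j hj => ?_
    have : tb (h' j) = tj j := by simp only [tb, hinv j hj]
    rw [this, ← hKκ]
  have hG := Gm_ne_zero (Finset.range d) h' κ φ Bs tb hne
  have hsupp := Gm_support (Finset.range d) h' κ φ Bs.card q
    (fun j _ => Nat.mod_lt j hqpos)
  have hsupp' : (Gm (Finset.range d) h' κ φ Bs.card).support.card ≤ (q * k) ^ k := by
    refine hsupp.trans ?_
    have hbase1 : 1 ≤ q * k := Nat.mul_pos hqpos hk
    exact Nat.pow_le_pow_right hbase1 (by omega)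
  -- the exponent
  let P : ℕ × Fin k → ℕ := fun p => pr k p.1 p.2
  have hP : ∀ p, (P p).Prime := fun p => pr_prime k p.1 p.2
  have hPinj : Function.Injective P := by
    intro p p' hpp
    exact Prod.ext (pr_inj hpp).1 (pr_inj hpp).2
  have hfew := few_zeros P hP hPinj _ hG
  obtain ⟨r₃, hr₃, hr₃ne⟩ := Few.exists_not (B := (q * k) ^ k + 1) hfew (by omega)
  refine ⟨r₃, hr₃, ?_⟩
  let ξ : ℕ × Fin k → ℚ := fun p => (P p : ℚ) ^ r₃
  have hexp := fun τ : ℚ => eval_expand (Finset.range d) h' κ φ ξ τ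
  rw [Finset.card_range] at hexp
  have hBsd : Bs.card ≤ d := by
    rw [hBscard]
    simpa using Finset.card_le_card hTd
  obtain ⟨τ, hτ, hτne⟩ := exists_tau (fun m => MvPolynomial.eval ξ (Gm (Finset.range d) h' κ φ m))
    d Bs.card hBsd hr₃ne
  refine ⟨τ, hτ, ?_⟩
  rw [← hexp τ] at hτne
  convert hτne using 6 with i _ j _
  simp only [betaM, κ, ξ, P, Finset.mul_sum, Finset.sum_mul, h']
  rw [Finset.sum_comm]
  refine Finset.sum_congr rfl fun t _ => Finset.sum_congr rfl fun a' _ => ?_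
  ring

end Vale.Agent.Lib.P314.D3
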