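import Vale.Agent.Lib.P314.Defs

/-! Definitions for the hitting family for homogeneous noncommutative depth-three circuits of top
fan-in `k` (P314): size polynomial in `n`, `d` for `k` up to about the square root of `log (n d)`. -/

open scoped BigOperators

namespace Vale.Agent.Lib.P314.D3

open Vale.Agent.Lib.P314

/-- The homogeneous noncommutative depth-three circuit
`∑ᵢ cᵢ (∑ₐ ℓ i 0 a xₐ) (∑ₐ ℓ i 1 a xₐ) ⋯ (∑ₐ ℓ i (d-1) a xₐ)` of top fan-in `k` and degree `d`. -/
noncomputable def depth3 {n k : ℕ} (d : ℕ) (c : Fin k → ℚ) (ℓ : Fin k → ℕ → Fin n → ℚ) : NC n :=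
  ∑ i, c i • ((List.range d).map fun j => ∑ a, ℓ i j a • FreeAlgebra.ι ℚ a).prod

/-- The bucket of a position `j`: the number formed by the bits of `j` at the indices listed in `B`. -/
def bucket : List ℕ → ℕ → ℕ
  | [], _ => 0
  | b :: B, j => 2 * bucket B j + (if j.testBit b then 1 else 0)

/-- The direction of the generator at position `j`, letter `a`: a polynomial of degree at most `k` without
constant term, evaluated at `σ ^ (j n + a)`, whose coefficients depend only on the bucket of `j`. -/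
noncomputable def betaD (n k : ℕ) (B : List ℕ) (σ r₃ : ℕ) (j : ℕ) (a : Fin n) : ℚ :=
  ∑ t : Fin k, ((pr k (bucket B j) t : ℕ) : ℚ) ^ r₃ * (σ : ℚ) ^ (((t : ℕ) + 1) * (j * n + (a : ℕ)))

/-- The weights of the generator: `p ^ r + τ * betaD`, where `p` is the prime attached to `(j, a)`. -/
noncomputable def genD (n k : ℕ) (B : List ℕ) (r σ r₃ τ : ℕ) : ℕ → Fin n → ℚ :=
  fun j a => (pr n j a : ℚ) ^ r + (τ : ℚ) * betaD n k B σ r₃ j a

/-- The homogeneous component of degree `m` in the variables `X (b, t)` of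
`∑ᵢ φᵢ ∏_{j ∈ J} (1 + ∑ₜ X (h j, t) * κ j t i)`. -/
noncomputable def Gm {k : ℕ} (J : Finset ℕ) (h : ℕ → ℕ) (κ : ℕ → Fin k → Fin k → ℚ) (φ : Fin k → ℚ)
    (m : ℕ) : MvPolynomial (ℕ × Fin k) ℚ :=
  ∑ T ∈ J.powersetCard m, ∑ i, MvPolynomial.C (φ i) *
    ∏ j ∈ T, ∑ t, MvPolynomial.X (h j, t) * MvPolynomial.C (κ j t i)

end Vale.Agent.Lib.P314.D3
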