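import Vale.Agent.Lib.P314.Shift
import Vale.Agent.Lib.P314.Regular
import Vale.Agent.Lib.P314.D3.Core

/-! MODULE D-Main. From the circuit to the core. Paper proof. Let `F = depth3 d c ℓ ≠ 0`. `depth3_eq_abp`: `F = abp c L d 1` with `L j a = Matrix.diagonal (fun i => ℓ i j a)` and `v = 1`: by induction, `abpRow c L j i = c i • (∏_{j' < j in order} ∑ₐ ℓ i j' a • ι a)` (in the sum over `k`, only `k = i` survives; scalars are central; `List.range_succ`, `List.prod_append`).
Put `val y = ∑ i, c i * ∏ j ∈ range d, ∑ a, y j a * ℓ i j a`; `rowAt c L y j i = c i * ∏_{j' ∈ range j} ∑ a, y j' a * ℓ i j' a` by induction, so `valAt c L y d 1 = val y`. By `abp_eq_zero_of` there is `y₀` with `val y₀ ≠ 0`. By `evalAt_abp`, the entry `(0, d)` (as elements of `Fin (d+1)`) of `FreeAlgebra.lift ℚ (shiftTuple d y) F` is `val y` (`s = 0`, `t = d`); so it suffices to get `val (genD ..) ≠ 0`.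
CASE `n = 0`: if `d ≥ 1` every form is `0`, the product is `0`, `F = 0`, contradiction. If `d = 0`: `val y = ∑ c i ≠ 0` for all `y`, take `B = []`, and all parameters `0`; `k ≠ 0` since the sum is nonzero. Also `d = 0` with any `n` is covered by the general case.
CASE `n > 0`. Choice of `r`: for `i`, `j < d`, if some `ℓ i j a ≠ 0` then by `few_zeros` (with `P a = pr n j a`, `G = ∑ a, C (ℓ i j a) * X a`, nonzero with support of size `≤ n`) at most `n` values of `r` give `∑ a, (pr n j a) ^ r * ℓ i j a = 0`. Union over `i`, `j < d` (`Few.or`, or a `Finset.biUnion` of the exceptional sets): at most `k * d * n` bad values, so there is `r < k * d * n + 1` good.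
Put `α j a = (pr n j a) ^ r`, `λ i j = ∑ a, α j a * ℓ i j a` (nonzero unless the form `ℓ i j` vanishes identically), `φ i = c i * ∏ j ∈ range d, λ i j`, `x j a i = ℓ i j a / λ i j` (division in `ℚ`; is `0` if `λ i j = 0`).
`val_shift`: for all `w : ℕ → Fin n → ℚ`: `val (α + w) = ∑ i, φ i * ∏ j ∈ range d, (1 + ∑ a, w j a * x j a i)`. For `i` with all `λ i j ≠ 0` (`j < d`) termwise: `∑ a, (α j a + w j a) * ℓ i j a = λ i j * (1 + ∑ a, w j a * x j a i)`, `Finset.prod_mul_distrib`. Otherwise some form `ℓ i j` is identically zero, `j < d`, and both terms vanish.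
Apply `core` with `z = y₀ - α` (`val_shift` with `w = z`) to get `B, σ, r₃, τ` with nonvanishing at `w = τ * betaD`; `genD n k B r σ r₃ τ = α + τ * betaD` by definition. -/

namespace Vale.Agent.Lib.P314.D3

open Vale.Agent.Lib.P314

namespace MainAux

/-- The diagonal layers of a depth-three circuit. -/
noncomputable def layers {n k : ℕ} (ℓ : Fin k → ℕ → Fin n → ℚ) :
    ℕ → Fin n → Matrix (Fin k) (Fin k) ℚ :=
  fun j a => Matrix.diagonal (fun i => ℓ i j a)

/-- The commutative value of a depth-three circuit. -/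
noncomputable def val {n k : ℕ} (d : ℕ) (c : Fin k → ℚ) (ℓ : Fin k → ℕ → Fin n → ℚ)
    (y : ℕ → Fin n → ℚ) : ℚ :=
  ∑ i, c i * ∏ j ∈ Finset.range d, ∑ a, y j a * ℓ i j a

theorem abpRow_layers {n k : ℕ} (c : Fin k → ℚ) (ℓ : Fin k → ℕ → Fin n → ℚ) (j : ℕ) (i : Fin k) :
    abpRow c (layers ℓ) j i =
      c i • ((List.range j).map fun j' => ∑ a, ℓ i j' a • FreeAlgebra.ι ℚ a).prod := by
  induction j with
  | zero =>
    simp [abpRow, Algebra.algebraMap_eq_smul_one]
  | succ j ih =>
    simp only [abpRow]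
    rw [Finset.sum_eq_single i]
    · rw [List.range_succ, List.map_append, List.prod_append]
      simp only [List.map_cons, List.map_nil, List.prod_cons, List.prod_nil, mul_one]
      rw [Finset.mul_sum, Finset.smul_sum]
      refine Finset.sum_congr rfl fun a _ => ?_
      rw [ih]
      simp only [layers, Matrix.diagonal_apply_eq]
      rw [Algebra.algebraMap_eq_smul_one]
      simp [smul_smul, mul_comm]
    · intro k' _ hk
      refine Finset.sum_eq_zero fun a _ => ?_
      simp [layers, Matrix.diagonal_apply_ne _ hk]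
    · simp

theorem depth3_eq_abp {n k : ℕ} (d : ℕ) (c : Fin k → ℚ) (ℓ : Fin k → ℕ → Fin n → ℚ) :
    depth3 d c ℓ = abp c (layers ℓ) d 1 := by
  simp only [depth3, abp]
  refine Finset.sum_congr rfl fun i _ => ?_
  rw [abpRow_layers]
  simp

theorem rowAt_layers {n k : ℕ} (c : Fin k → ℚ) (ℓ : Fin k → ℕ → Fin n → ℚ) (y : ℕ → Fin n → ℚ)
    (j : ℕ) (i : Fin k) :
    rowAt c (layers ℓ) y j i = c i * ∏ j' ∈ Finset.range j, ∑ a, y j' a * ℓ i j' a := by
  induction j with
  | zero => simp [rowAt]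
  | succ j ih =>
    simp only [rowAt]
    rw [Finset.sum_eq_single i]
    · rw [Finset.prod_range_succ, ← mul_assoc, ← ih, Finset.mul_sum]
      refine Finset.sum_congr rfl fun a _ => ?_
      simp [layers, mul_assoc]
    · intro k' _ hk
      refine Finset.sum_eq_zero fun a _ => ?_
      simp [layers, Matrix.diagonal_apply_ne _ hk]
    · simp

theorem valAt_layers {n k : ℕ} (d : ℕ) (c : Fin k → ℚ) (ℓ : Fin k → ℕ → Fin n → ℚ)
    (y : ℕ → Fin n → ℚ) : valAt c (layers ℓ) y d 1 = val d c ℓ y := by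
  simp only [valAt, val, rowAt_layers]
  simp

theorem lift_ne_of_val {n k : ℕ} (d : ℕ) (c : Fin k → ℚ) (ℓ : Fin k → ℕ → Fin n → ℚ)
    (y : ℕ → Fin n → ℚ) (h : val d c ℓ y ≠ 0) :
    FreeAlgebra.lift ℚ (shiftTuple d y) (depth3 d c ℓ) ≠ 0 := by
  intro h0
  have h1 : evalAt d y (abp c (layers ℓ) d 1) = 0 := by
    rw [← depth3_eq_abp]
    exact h0
  have h2 := congrFun (congrFun h1 (0 : Fin (d + 1))) (Fin.last d)
  rw [evalAt_abp] at h2
  simp only [Fin.val_zero, zero_add, Fin.val_last, if_true] at h2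
  rw [valAt_layers] at h2
  exact h h2

/-- The sum of the form `ℓ` at prime powers: a nonzero form vanishes for few exponents. -/
theorem few_form {n : ℕ} (j : ℕ) (l : Fin n → ℚ) (hl : ∃ a, l a ≠ 0) :
    Few (fun r => ∑ a, ((pr n j a : ℕ) : ℚ) ^ r * l a = 0) n := by
  classical
  set G : MvPolynomial (Fin n) ℚ := ∑ a, MvPolynomial.C (l a) * MvPolynomial.X a with hG
  have hGne : G ≠ 0 := by
    obtain ⟨a, ha⟩ := hl
    intro h0
    have h1 := congrArg (MvPolynomial.eval (fun b => if b = a then (1 : ℚ) else 0)) h0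
    simp [hG] at h1
    exact ha h1
  have hcard : G.support.card ≤ n := by
    have hsub : G.support ⊆ Finset.univ.image (fun a : Fin n => Finsupp.single a 1) := by
      intro m hm
      have hm' := MvPolynomial.support_sum (hm)
      obtain ⟨a, -, ha⟩ := Finset.mem_biUnion.mp hm'
      rw [Finset.mem_image]
      refine ⟨a, Finset.mem_univ _, ?_⟩
      rw [MvPolynomial.C_mul_X_eq_monomial] at ha
      have := MvPolynomial.support_monomial_subset ha
      exact (Finset.mem_singleton.mp this).symm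
    calc G.support.card ≤ _ := Finset.card_le_card hsub
      _ ≤ (Finset.univ : Finset (Fin n)).card := Finset.card_image_le
      _ = n := by simp
  refine Few.mono (few_zeros (fun a => pr n j a) (fun a => pr_prime n j a)
    (fun a b hab => (pr_inj hab).2) G hGne) ?_ (le_trans (Nat.sub_le _ _) hcard)
  intro r hr
  simp only [hG, map_sum, map_mul, MvPolynomial.eval_C, MvPolynomial.eval_X]
  rw [← hr]
  exact Finset.sum_congr rfl fun a _ => mul_comm _ _

/-- A good exponent for all forms. -/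
theorem exists_good_r {n k : ℕ} (d : ℕ) (ℓ : Fin k → ℕ → Fin n → ℚ) :
    ∃ r, r < k * d * n + 1 ∧ ∀ (i : Fin k), ∀ j < d, (∃ a, ℓ i j a ≠ 0) →
      ∑ a, ((pr n j a : ℕ) : ℚ) ^ r * ℓ i j a ≠ 0 := by
  classical
  let bad : ℕ → ℕ → ℕ → Prop := fun i' j r => ∃ h : i' < k, (∃ a, ℓ ⟨i', h⟩ j a ≠ 0) ∧
    ∑ a, ((pr n j a : ℕ) : ℚ) ^ r * ℓ ⟨i', h⟩ j a = 0
  have h1 : ∀ i' < k, ∀ j < d, Few (bad i' j) n := by
    intro i' hi j _
    by_cases hl : ∃ a, ℓ ⟨i', hi⟩ j a ≠ 0
    · refine Few.mono (few_form j (ℓ ⟨i', hi⟩ j) hl) ?_ le_rfl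
      rintro r ⟨_, _, h⟩
      exact h
    · intro Z hZ
      rcases Z.eq_empty_or_nonempty with rfl | ⟨r, hr⟩
      · simp
      · obtain ⟨_, hex, _⟩ := hZ r hr
        exact absurd hex hl
  have h2 : ∀ i' < k, Few (fun r => ∃ j < d, bad i' j r) (d * n) :=
    fun i' hi => few_exists_lt d (h1 i' hi)
  have h3 : Few (fun r => ∃ i' < k, ∃ j < d, bad i' j r) (k * (d * n)) :=
    few_exists_lt k h2
  by_contra hcon
  push_neg at hcon
  have h4 := h3 (Finset.range (k * d * n + 1)) (by
    intro r hr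
    obtain ⟨i, j, hj, hex, h0⟩ := hcon r (Finset.mem_range.mp hr)
    exact ⟨i, i.2, j, hj, i.2, hex, h0⟩)
  rw [Finset.card_range] at h4
  have : k * d * n = k * (d * n) := Nat.mul_assoc _ _ _
  omega

end MainAux

open MainAux in
/-- An explicit family of weighted shift tuples hits every nonzero homogeneous noncommutative depth-three circuit of top fan-in `k` and degree `d ≤ 2 ^ L`. -/
theorem depth3_hit {n k d L : ℕ} (hL : d ≤ 2 ^ L) (c : Fin k → ℚ) (ℓ : Fin k → ℕ → Fin n → ℚ)
    (hF : depth3 d c ℓ ≠ 0) :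
    ∃ r, r < k * d * n + 1 ∧ ∃ B : List ℕ, B.length < k ∧ (∀ b ∈ B, b < L) ∧
      ∃ σ, σ < k ^ 3 * (d * n) + 1 ∧ ∃ r₃, r₃ < (2 ^ k * k) ^ k + 1 ∧ ∃ τ : ℕ, τ ≤ d ∧
        FreeAlgebra.lift ℚ (shiftTuple d (genD n k B r σ r₃ τ)) (depth3 d c ℓ) ≠ 0 := by
  classical
  -- a point where the value does not vanish
  have hy : ∃ y₀ : ℕ → Fin n → ℚ, val d c ℓ y₀ ≠ 0 := by
    by_contra hcon
    push_neg at hcon
    apply hF
    rw [depth3_eq_abp]
    refine abp_eq_zero_of _ _ _ _ fun y => ?_
    rw [valAt_layers]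
    exact hcon y
  obtain ⟨y₀, hy₀⟩ := hy
  rcases Nat.eq_zero_or_pos n with rfl | hn
  · -- no letters
    have hd : d = 0 := by
      by_contra hd
      apply hy₀
      simp only [val]
      refine Finset.sum_eq_zero fun i _ => ?_
      rw [Finset.prod_eq_zero (Finset.mem_range.mpr (Nat.pos_of_ne_zero hd))]
      · simp
      · simp
    subst hd
    have hk : 0 < k := by
      rcases Nat.eq_zero_or_pos k with rfl | hk
      · exact absurd (by simp [val]) hy₀
      · exact hk
    refine ⟨0, by simp, [], by simpa using hk, by simp, 0, by simp, 0, by simp, 0, le_rfl, ?_⟩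
    refine lift_ne_of_val 0 c ℓ _ ?_
    simpa [val] using hy₀
  · obtain ⟨r, hr, hgood⟩ := exists_good_r d ℓ
    let α : ℕ → Fin n → ℚ := fun j a => ((pr n j a : ℕ) : ℚ) ^ r
    let lam : Fin k → ℕ → ℚ := fun i j => ∑ a, α j a * ℓ i j a
    let φ : Fin k → ℚ := fun i => c i * ∏ j ∈ Finset.range d, lam i j
    let x : ℕ → Fin n → Fin k → ℚ := fun j a i => ℓ i j a / lam i j
    have val_shift : ∀ w : ℕ → Fin n → ℚ, val d c ℓ (fun j a => α j a + w j a) =
        ∑ i, φ i * ∏ j ∈ Finset.range d, (1 + ∑ a, w j a * x j a i) := by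
      intro w
      simp only [val]
      refine Finset.sum_congr rfl fun i _ => ?_
      by_cases hall : ∀ j ∈ Finset.range d, lam i j ≠ 0
      · simp only [φ]
        rw [mul_assoc, ← Finset.prod_mul_distrib]
        congr 1
        refine Finset.prod_congr rfl fun j hj => ?_
        have hlj := hall j hj
        rw [mul_add, mul_one, Finset.mul_sum]
        simp only [add_mul, Finset.sum_add_distrib]
        congr 1
        refine Finset.sum_congr rfl fun a _ => ?_
        simp only [x]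
        field_simp
      · push_neg at hall
        obtain ⟨j, hj, hj0⟩ := hall
        have hzero : ∀ a, ℓ i j a = 0 := by
          by_contra hex
          push_neg at hex
          exact hgood i j (Finset.mem_range.mp hj) hex hj0
        have h1 : (∏ j ∈ Finset.range d, ∑ a, (α j a + w j a) * ℓ i j a) = 0 :=
          Finset.prod_eq_zero hj (by simp [hzero])
        have h2 : (∏ j ∈ Finset.range d, lam i j) = 0 := Finset.prod_eq_zero hj hj0
        simp only [φ, h1, h2]
        simp
    have hstart : ∑ i, φ i * ∏ j ∈ Finset.range d, (1 + ∑ a, (y₀ j a - α j a) * x j a i) ≠ 0 := by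
      rw [← val_shift]
      have : (fun j a => α j a + (y₀ j a - α j a)) = y₀ := by
        funext j a
        ring
      rw [this]
      exact hy₀
    obtain ⟨B, hB, hBL, σ, hσ, r₃, hr₃, τ, hτ, hne⟩ :=
      core hn hL x φ (fun j a => y₀ j a - α j a) hstart
    refine ⟨r, hr, B, hB, hBL, σ, hσ, r₃, hr₃, τ, hτ, ?_⟩
    refine lift_ne_of_val d c ℓ _ ?_
    have hgen : genD n k B r σ r₃ τ = fun j a => α j a + (τ : ℚ) * betaD n k B σ r₃ j a := rfl
    rw [hgen, val_shift]
    exact hne

end Vale.Agent.Lib.P314.D3
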