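import Vale.Agent.Lib.P314.D3.Main
import Vale.Agent.Lib.P314.D3.CoreRes

/-! The hitting family with residue buckets: same proof as `depth3_hit`. -/

namespace Vale.Agent.Lib.P314.D3

open Vale.Agent.Lib.P314

open MainAux in
/-- An explicit family of weighted shift tuples hits every nonzero homogeneous noncommutative depth-three circuit of top fan-in `k` and degree `d ≤ 2 ^ L`. -/
theorem depth3_hitM {n k d L : ℕ} (hL : d ≤ 2 ^ L) (c : Fin k → ℚ) (ℓ : Fin k → ℕ → Fin n → ℚ)
    (hF : depth3 d c ℓ ≠ 0) :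
    ∃ r, r < k * d * n + 1 ∧ ∃ e, e ≤ k ^ 2 * L ∧
      ∃ σ, σ < k ^ 3 * (d * n) + 1 ∧ ∃ r₃, r₃ < (Nat.nth Nat.Prime e * k) ^ k + 1 ∧ ∃ τ : ℕ, τ ≤ d ∧
        FreeAlgebra.lift ℚ (shiftTuple d (genM n k (Nat.nth Nat.Prime e) r σ r₃ τ)) (depth3 d c ℓ) ≠ 0 := by
  classical
  -- a point where the value does not vanish
  have hy : ∃ y₀ : ℕ → Fin n → ℚ, val d c ℓ y₀ ≠ 0 := by
    by_contra hcon
    push_neg at hcon
    apply hF
    rw [depth3_eq_abp]
    refine abp_eq_zero_of _ _ _ _ fun y => ?_
    rw [valAt_layers]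
    exact hcon y
  obtain ⟨y₀, hy₀⟩ := hy
  rcases Nat.eq_zero_or_pos n with rfl | hn
  · -- no letters
    have hd : d = 0 := by
      by_contra hd
      apply hy₀
      simp only [val]
      refine Finset.sum_eq_zero fun i _ => ?_
      rw [Finset.prod_eq_zero (Finset.mem_range.mpr (Nat.pos_of_ne_zero hd))]
      · simp
      · simp
    subst hd
    have hk : 0 < k := by
      rcases Nat.eq_zero_or_pos k with rfl | hk
      · exact absurd (by simp [val]) hy₀
      · exact hk
    refine ⟨0, by simp, 0, by simp, 0, by simp, 0, by simp, 0, le_rfl, ?_⟩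
    refine lift_ne_of_val 0 c ℓ _ ?_
    simpa [val] using hy₀
  · obtain ⟨r, hr, hgood⟩ := exists_good_r d ℓ
    let α : ℕ → Fin n → ℚ := fun j a => ((pr n j a : ℕ) : ℚ) ^ r
    let lam : Fin k → ℕ → ℚ := fun i j => ∑ a, α j a * ℓ i j a
    let φ : Fin k → ℚ := fun i => c i * ∏ j ∈ Finset.range d, lam i j
    let x : ℕ → Fin n → Fin k → ℚ := fun j a i => ℓ i j a / lam i j
    have val_shift : ∀ w : ℕ → Fin n → ℚ, val d c ℓ (fun j a => α j a + w j a) =
        ∑ i, φ i * ∏ j ∈ Finset.range d, (1 + ∑ a, w j a * x j a i) := by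
      intro w
      simp only [val]
      refine Finset.sum_congr rfl fun i _ => ?_
      by_cases hall : ∀ j ∈ Finset.range d, lam i j ≠ 0
      · simp only [φ]
        rw [mul_assoc, ← Finset.prod_mul_distrib]
        congr 1
        refine Finset.prod_congr rfl fun j hj => ?_
        have hlj := hall j hj
        rw [mul_add, mul_one, Finset.mul_sum]
        simp only [add_mul, Finset.sum_add_distrib]
        congr 1
        refine Finset.sum_congr rfl fun a _ => ?_
        simp only [x]
        field_simp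
      · push_neg at hall
        obtain ⟨j, hj, hj0⟩ := hall
        have hzero : ∀ a, ℓ i j a = 0 := by
          by_contra hex
          push_neg at hex
          exact hgood i j (Finset.mem_range.mp hj) hex hj0
        have h1 : (∏ j ∈ Finset.range d, ∑ a, (α j a + w j a) * ℓ i j a) = 0 :=
          Finset.prod_eq_zero hj (by simp [hzero])
        have h2 : (∏ j ∈ Finset.range d, lam i j) = 0 := Finset.prod_eq_zero hj hj0
        simp only [φ, h1, h2]
        simp
    have hstart : ∑ i, φ i * ∏ j ∈ Finset.range d, (1 + ∑ a, (y₀ j a - α j a) * x j a i) ≠ 0 := by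
      rw [← val_shift]
      have : (fun j a => α j a + (y₀ j a - α j a)) = y₀ := by
        funext j a
        ring
      rw [this]
      exact hy₀
    obtain ⟨e, he, σ, hσ, r₃, hr₃, τ, hτ, hne⟩ :=
      coreRes hn hL x φ (fun j a => y₀ j a - α j a) hstart
    refine ⟨r, hr, e, he, σ, hσ, r₃, hr₃, τ, hτ, ?_⟩
    refine lift_ne_of_val d c ℓ _ ?_
    have hgen : genM n k (Nat.nth Nat.Prime e) r σ r₃ τ =
        fun j a => α j a + (τ : ℚ) * betaM n k (Nat.nth Nat.Prime e) σ r₃ j a := rfl
    rw [hgen, val_shift]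
    exact hne

end Vale.Agent.Lib.P314.D3
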