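import Mathlib

/-! MODULE D-PolyDet. Generalized Vandermonde determinant with polynomial entries. Paper proof. Put `e i = (g i).natDegree`, strictly monotone. Entry `(i, t)` is `(g i).comp (X ^ (t+1))` of natDegree `(t+1) * e i` (`Polynomial.natDegree_comp`, `natDegree_X_pow`) with leading coefficient `leadingCoeff (g i)`.
`Matrix.det_apply`: the determinant is `∑ π, sign π • ∏ t, P (π t) t`. The term of `π` has natDegree at most `∑ t, (t+1) * e (π t)`. By the strict rearrangement inequality (see `Mathlib.Algebra.Order.Rearrangement`, or a direct argument) this is strictly less than `D = ∑ t, (t+1) * e t` when `π ≠ 1`: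
`t ↦ t + 1` and `e` are strictly monotone, so if `π ≠ 1` there are `s < t` with `π s > π t`, so `t + 1` and `e ∘ π` do not monovary. So the coefficient of `X ^ D` in the determinant is `∏ t, leadingCoeff (g t) ≠ 0` (identity term only), so `det ≠ 0`; all terms have natDegree `≤ D ≤ ρ ^ 2 * N` when all `e t < N`, since `∑ t, (t+1) ≤ ρ ^ 2`. -/

namespace Vale.Agent.Lib.P314.D3

open Polynomial

private lemma perm_eq_one_of_strictMono {ρ : ℕ} (π : Equiv.Perm (Fin ρ)) (h : StrictMono π) : π = 1 := by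
  have h1 : StrictMono.orderIsoOfSurjective π h π.surjective = OrderIso.refl _ := Subsingleton.elim _ _
  refine Equiv.ext fun i => ?_
  have := congrArg (fun f : Fin ρ ≃o Fin ρ => f i) h1
  simpa using this

private lemma entry_natDegree {ρ : ℕ} (g : Fin ρ → ℚ[X]) (i t : Fin ρ) :
    ((g i).comp (X ^ ((t : ℕ) + 1))).natDegree = (g i).natDegree * ((t : ℕ) + 1) := by
  rw [natDegree_comp, natDegree_X_pow]

private lemma entry_ne_zero {ρ : ℕ} (g : Fin ρ → ℚ[X]) (hg : ∀ i, g i ≠ 0) (i t : Fin ρ) :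
    (g i).comp (X ^ ((t : ℕ) + 1)) ≠ 0 := by
  intro h
  rw [comp_eq_zero_iff] at h
  rcases h with h | ⟨_, h⟩
  · exact hg i h
  · have h2 := congrArg natDegree h
    rw [natDegree_X_pow, natDegree_C] at h2
    omega

private lemma term_natDegree {ρ : ℕ} (g : Fin ρ → ℚ[X]) (hg : ∀ i, g i ≠ 0) (π : Equiv.Perm (Fin ρ)) :
    (∏ t : Fin ρ, (g (π t)).comp (X ^ ((t : ℕ) + 1))).natDegree =
      ∑ t : Fin ρ, (g (π t)).natDegree * ((t : ℕ) + 1) := by
  rw [natDegree_prod _ _ (fun t _ => entry_ne_zero g hg (π t) t)]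
  exact Finset.sum_congr rfl (fun t _ => entry_natDegree g (π t) t)

private lemma rearr {ρ : ℕ} (e : Fin ρ → ℕ) (he : StrictMono e) (π : Equiv.Perm (Fin ρ)) (hπ : π ≠ 1) :
    ∑ t : Fin ρ, e (π t) * ((t : ℕ) + 1) < ∑ t : Fin ρ, e t * ((t : ℕ) + 1) := by
  have hmon : Monovary e (fun t : Fin ρ => (t : ℕ) + 1) := by
    intro i j hij
    have : i < j := by
      have : (i : ℕ) < (j : ℕ) := by simpa using hij
      exact this
    exact (he this).le
  refine (hmon.sum_comp_perm_mul_lt_sum_mul_iff (σ := π)).2 ?_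
  intro hm
  apply hπ
  apply perm_eq_one_of_strictMono
  intro i j hij
  have hle : e (π i) ≤ e (π j) := by
    apply hm
    have : (i : ℕ) < (j : ℕ) := hij
    simpa using this
  have hle2 : π i ≤ π j := he.le_iff_le.1 hle
  exact lt_of_le_of_ne hle2 (fun h => (ne_of_lt hij) (π.injective h))

/-- For polynomials `g i` with strictly increasing degrees, the matrix of the `g i (X ^ (t + 1))` has nonzero determinant of degree at most `ρ ^ 2 * N`. -/
theorem polyDet {ρ N : ℕ} (g : Fin ρ → ℚ[X]) (hg : ∀ i, g i ≠ 0) (hm : StrictMono fun i => (g i).natDegree)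
    (hN : ∀ i, (g i).natDegree < N) :
    (Matrix.of fun i t : Fin ρ => (g i).comp (X ^ ((t : ℕ) + 1))).det ≠ 0 ∧
      (Matrix.of fun i t : Fin ρ => (g i).comp (X ^ ((t : ℕ) + 1))).det.natDegree ≤ ρ ^ 2 * N := by
  set D : ℕ := ∑ t : Fin ρ, (g t).natDegree * ((t : ℕ) + 1) with hD
  have hdet : (Matrix.of fun i t : Fin ρ => (g i).comp (X ^ ((t : ℕ) + 1))).det =
      ∑ π : Equiv.Perm (Fin ρ), Equiv.Perm.sign π • ∏ t : Fin ρ, (g (π t)).comp (X ^ ((t : ℕ) + 1)) := by
    rw [Matrix.det_apply]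
    rfl
  -- degrees of all terms
  have hterm : ∀ π : Equiv.Perm (Fin ρ),
      (∏ t : Fin ρ, (g (π t)).comp (X ^ ((t : ℕ) + 1))).natDegree ≤ D := by
    intro π
    rw [term_natDegree g hg π]
    by_cases hπ : π = 1
    · subst hπ
      simp [hD]
    · exact (rearr (fun i => (g i).natDegree) hm π hπ).le
  have hDN : D ≤ ρ ^ 2 * N := by
    have : ∀ t ∈ (Finset.univ : Finset (Fin ρ)), (g t).natDegree * ((t : ℕ) + 1) ≤ N * ρ := by
      intro t _
      have h1 := (hN t).le
      have h2 : (t : ℕ) + 1 ≤ ρ := t.isLt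
      exact Nat.mul_le_mul h1 h2
    calc D ≤ ∑ _t : Fin ρ, N * ρ := Finset.sum_le_sum this
      _ = ρ * (N * ρ) := by simp
      _ = ρ ^ 2 * N := by ring
  have hsmul : ∀ (π : Equiv.Perm (Fin ρ)) (p : ℚ[X]), (Equiv.Perm.sign π • p).natDegree ≤ p.natDegree := by
    intro π p
    rcases Int.units_eq_one_or (Equiv.Perm.sign π) with h | h
    · rw [h]; simp
    · rw [h]
      have : ((-1 : ℤˣ) • p) = -p := by
        simp [Units.smul_def]
      rw [this, natDegree_neg]
  constructor
  · -- nonvanishing via the coefficient of `X ^ D`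
    intro h0
    have hc : ((Matrix.of fun i t : Fin ρ => (g i).comp (X ^ ((t : ℕ) + 1))).det).coeff D ≠ 0 := by
      rw [hdet, finsetSum_coeff, Finset.sum_eq_single (1 : Equiv.Perm (Fin ρ))]
      · have hne : (∏ t : Fin ρ, (g ((1 : Equiv.Perm (Fin ρ)) t)).comp (X ^ ((t : ℕ) + 1))) ≠ 0 :=
          Finset.prod_ne_zero_iff.2 (fun t _ => entry_ne_zero g hg _ t)
        have hdeg : (∏ t : Fin ρ, (g ((1 : Equiv.Perm (Fin ρ)) t)).comp (X ^ ((t : ℕ) + 1))).natDegree = D := by
          rw [term_natDegree g hg 1]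
          simp [hD]
        simp only [map_one, one_smul]
        rw [← hdeg]
        exact leadingCoeff_ne_zero.2 hne
      · intro π _ hπ
        have hlt : (∏ t : Fin ρ, (g (π t)).comp (X ^ ((t : ℕ) + 1))).natDegree < D := by
          rw [term_natDegree g hg π]
          exact rearr (fun i => (g i).natDegree) hm π hπ
        have hlt2 : (Equiv.Perm.sign π • ∏ t : Fin ρ, (g (π t)).comp (X ^ ((t : ℕ) + 1))).natDegree < D :=
          lt_of_le_of_lt (hsmul π _) hlt
        exact coeff_eq_zero_of_natDegree_lt hlt2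
      · intro h1
        exact absurd (Finset.mem_univ _) h1
    rw [h0] at hc
    simp at hc
  · rw [hdet]
    refine le_trans (natDegree_sum_le _ _) ?_
    refine le_trans ?_ hDN
    rw [Finset.fold_max_le]
    refine ⟨Nat.zero_le _, ?_⟩
    intro π _
    exact le_trans (hsmul π _) (hterm π)

end Vale.Agent.Lib.P314.D3
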